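import Vale.Agent.P155.A.KOp

/-!
# P155, block A3b: the Kasteleyn operator on closed unions of coarse cells
-/

namespace Vale.Agent.P155

open Finset

/-- `C` behaves like a closed union of coarse cells: with an (odd,odd) point it contains the whole
`3 × 3` square, and with a white point its two (even,even) neighbours. -/
structure IsCl (C : Finset Pt) : Prop where
  cell : ∀ b ∈ C, B1 b → ∀ v : Pt, |v.1 - b.1| ≤ 1 → |v.2 - b.2| ≤ 1 → v ∈ C
  edge : ∀ w ∈ C, White w → ∀ b, B0 b → Adj w b → b ∈ C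

/-- restriction to the (even,even) points -/
def r0 (f : Pt → ℝ) (v : Pt) : ℝ := if B0 v then f v else 0

/-- restriction to the (odd,odd) points -/
def r1 (f : Pt → ℝ) (v : Pt) : ℝ := if B1 v then f v else 0

theorem r0_of {f : Pt → ℝ} {v : Pt} (h : B0 v) : r0 f v = f v := if_pos h
theorem r1_of {f : Pt → ℝ} {v : Pt} (h : B1 v) : r1 f v = f v := if_pos h
theorem r0_of_B1 {f : Pt → ℝ} {v : Pt} (h : B1 v) : r0 f v = 0 := if_neg (not_B0_of_B1 h)
theorem r1_of_B0 {f : Pt → ℝ} {v : Pt} (h : B0 v) : r1 f v = 0 := if_neg (not_B1_of_B0 h)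

theorem B0_shift {v : Pt} (h : B0 v) :
    B0 (v.1 + 2, v.2) ∧ B0 (v.1 - 2, v.2) ∧ B0 (v.1, v.2 + 2) ∧ B0 (v.1, v.2 - 2) := by
  obtain ⟨⟨a, ha⟩, ⟨c, hc⟩⟩ := h
  refine ⟨⟨⟨a + 1, by simp only; omega⟩, ⟨c, hc⟩⟩, ⟨⟨a - 1, by simp only; omega⟩, ⟨c, hc⟩⟩,
    ⟨⟨a, ha⟩, ⟨c + 1, by simp only; omega⟩⟩, ⟨⟨a, ha⟩, ⟨c - 1, by simp only; omega⟩⟩⟩

theorem B1_shift {v : Pt} (h : B1 v) :
    B1 (v.1 + 2, v.2) ∧ B1 (v.1 - 2, v.2) ∧ B1 (v.1, v.2 + 2) ∧ B1 (v.1, v.2 - 2) := by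
  obtain ⟨⟨a, ha⟩, ⟨c, hc⟩⟩ := h
  refine ⟨⟨⟨a + 1, by simp only; omega⟩, ⟨c, hc⟩⟩, ⟨⟨a - 1, by simp only; omega⟩, ⟨c, hc⟩⟩,
    ⟨⟨a, ha⟩, ⟨c + 1, by simp only; omega⟩⟩, ⟨⟨a, ha⟩, ⟨c - 1, by simp only; omega⟩⟩⟩

theorem Kop_add (f g : Pt → ℝ) (w : Pt) : Kop (fun v => f v + g v) w = Kop f w + Kop g w := by
  unfold Kop; ring

theorem Kop_congr {f g : Pt → ℝ} {w : Pt} (h : ∀ b ∈ nbrs w, f b = g b) : Kop f w = Kop g w := by
  rw [← sum_nbrs_K, ← sum_nbrs_K]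
  exact sum_congr rfl fun b hb => by rw [h b hb]

theorem KTop_congr {f g : Pt → ℝ} {b : Pt} (h : ∀ w ∈ nbrs b, f w = g w) :
    KTop f b = KTop g b := by
  rw [← sum_nbrs_KT, ← sum_nbrs_KT]
  exact sum_congr rfl fun w hw => by rw [h w hw]

theorem Kop_split {f : Pt → ℝ} {w : Pt} (hw : White w) : Kop f w = Kop (r0 f) w + Kop (r1 f) w := by
  rw [← Kop_add]
  refine Kop_congr fun b hb => ?_
  rcases black_iff.1 ((mem_nbrs.1 hb).black hw) with h | h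
  · rw [r0_of h, r1_of_B0 h, add_zero]
  · rw [r0_of_B1 h, r1_of h, zero_add]

theorem KTop_Kop_r0 {f : Pt → ℝ} {b : Pt} (hb : B1 b) : KTop (Kop (r0 f)) b = 0 := by
  obtain ⟨h1, h2, h3, h4⟩ := B1_shift hb
  rw [KTop_Kop, r0_of_B1 hb, r0_of_B1 h1, r0_of_B1 h2, r0_of_B1 h3, r0_of_B1 h4]
  ring

theorem KTop_Kop_r1 {f : Pt → ℝ} {b : Pt} (hb : B0 b) : KTop (Kop (r1 f)) b = 0 := by
  obtain ⟨h1, h2, h3, h4⟩ := B0_shift hb
  rw [KTop_Kop, r1_of_B0 hb, r1_of_B0 h1, r1_of_B0 h2, r1_of_B0 h3, r1_of_B0 h4]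
  ring

theorem adj_abs {b w : Pt} (h : Adj b w) : |w.1 - b.1| ≤ 1 ∧ |w.2 - b.2| ≤ 1 := by
  unfold Adj at h
  have h1 := abs_nonneg (b.1 - w.1)
  have h2 := abs_nonneg (b.2 - w.2)
  rw [abs_sub_comm w.1, abs_sub_comm w.2]
  omega

variable {C : Finset Pt} {f : Pt → ℝ}

theorem IsCl.nbr_mem (hC : IsCl C) {b w : Pt} (hb : b ∈ C) (h1 : B1 b) (hw : w ∈ nbrs b) :
    w ∈ C := by
  have h := adj_abs (mem_nbrs.1 hw)
  exact hC.cell b hb h1 w h.1 h.2

/-- the mixed term vanishes -/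
theorem IsCl.cross_zero (hC : IsCl C) (hf : ∀ b, B1 b → b ∉ C → f b = 0) (g : Pt → ℝ) :
    ∑ w ∈ C.filter White, Kop (r0 g) w * Kop (r1 f) w = 0 := by
  have h1 : ∀ w, Kop (r1 f) w = ∑ b ∈ C, K w b * r1 f b := by
    intro w
    rw [sum_K_eq]
    intro b _ hbC
    by_cases hb1 : B1 b
    · rw [r1_of hb1]; exact hf b hb1 hbC
    · unfold r1; rw [if_neg hb1]
  have h2 : ∑ w ∈ C.filter White, Kop (r0 g) w * Kop (r1 f) w
      = ∑ b ∈ C, r1 f b * ∑ w ∈ C.filter White, K w b * Kop (r0 g) w := by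
    calc _ = ∑ w ∈ C.filter White, ∑ b ∈ C, r1 f b * (K w b * Kop (r0 g) w) := by
          refine sum_congr rfl fun w _ => ?_
          rw [h1, mul_sum]
          exact sum_congr rfl fun b _ => by ring
      _ = _ := by
          rw [sum_comm]
          exact sum_congr rfl fun b _ => by rw [mul_sum]
  rw [h2]
  refine sum_eq_zero fun b hb => ?_
  by_cases hb1 : B1 b
  · rw [sum_KT_eq, KTop_Kop_r0 hb1, mul_zero]
    intro w hw hwC
    exfalso
    apply hwC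
    rw [mem_filter]
    exact ⟨hC.nbr_mem hb hb1 hw, (mem_nbrs.1 hw).white hb1.black⟩
  · unfold r1; rw [if_neg hb1, zero_mul]

/-- **energy identity** -/
theorem IsCl.energy_split (hC : IsCl C) (hf : ∀ b, B1 b → b ∉ C → f b = 0) :
    ∑ w ∈ C.filter White, Kop f w ^ 2
      = ∑ w ∈ C.filter White, Kop (r0 f) w ^ 2 + ∑ w ∈ C.filter White, Kop (r1 f) w ^ 2 := by
  have h := hC.cross_zero hf f
  calc ∑ w ∈ C.filter White, Kop f w ^ 2
      = ∑ w ∈ C.filter White, (Kop (r0 f) w ^ 2 + Kop (r1 f) w ^ 2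
        + 2 * (Kop (r0 f) w * Kop (r1 f) w)) := by
        refine sum_congr rfl fun w hw => ?_
        rw [Kop_split (mem_filter.1 hw).2]
        ring
    _ = _ := by
        rw [sum_add_distrib, sum_add_distrib, ← mul_sum, h]
        ring

/-- the value of the (even,even) part -/
theorem Kop_r0_eq {w : Pt} (hw : White w) :
    Kop (r0 f) w = if Odd w.1 then f (w.1 + 1, w.2) - f (w.1 - 1, w.2)
      else sg w.2 * (f (w.1, w.2 + 1) - f (w.1, w.2 - 1)) := by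
  unfold White at hw
  unfold Kop
  split_ifs with h
  · have h2 : Even w.2 := by
      rw [Int.odd_add] at hw
      exact hw.1 h
    have e1 : r0 f (w.1 + 1, w.2) = f (w.1 + 1, w.2) := r0_of ⟨h.add_one, h2⟩
    have e2 : r0 f (w.1 - 1, w.2) = f (w.1 - 1, w.2) := r0_of ⟨h.sub_odd odd_one, h2⟩
    have e3 : r0 f (w.1, w.2 + 1) = 0 := r0_of_B1 ⟨h, h2.add_one⟩
    have e4 : r0 f (w.1, w.2 - 1) = 0 := r0_of_B1 ⟨h, h2.sub_odd odd_one⟩
    rw [e1, e2, e3, e4]; ring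
  · have h1 : Even w.1 := Int.not_odd_iff_even.1 h
    have h2 : Odd w.2 := by
      rw [add_comm, Int.odd_add] at hw
      exact hw.2 h1
    have e1 : r0 f (w.1 + 1, w.2) = 0 := r0_of_B1 ⟨h1.add_one, h2⟩
    have e2 : r0 f (w.1 - 1, w.2) = 0 := r0_of_B1 ⟨h1.sub_odd odd_one, h2⟩
    have e3 : r0 f (w.1, w.2 + 1) = f (w.1, w.2 + 1) := r0_of ⟨h1, h2.add_one⟩
    have e4 : r0 f (w.1, w.2 - 1) = f (w.1, w.2 - 1) := r0_of ⟨h1, h2.sub_odd odd_one⟩
    rw [e1, e2, e3, e4]; ring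

/-- the value of the (odd,odd) part -/
theorem Kop_r1_eq {w : Pt} (hw : White w) :
    Kop (r1 f) w = if Odd w.1 then f (w.1, w.2 + 1) - f (w.1, w.2 - 1)
      else f (w.1 + 1, w.2) - f (w.1 - 1, w.2) := by
  unfold White at hw
  unfold Kop
  split_ifs with h
  · have h2 : Even w.2 := by
      rw [Int.odd_add] at hw
      exact hw.1 h
    have e1 : r1 f (w.1 + 1, w.2) = 0 := r1_of_B0 ⟨h.add_one, h2⟩
    have e2 : r1 f (w.1 - 1, w.2) = 0 := r1_of_B0 ⟨h.sub_odd odd_one, h2⟩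
    have e3 : r1 f (w.1, w.2 + 1) = f (w.1, w.2 + 1) := r1_of ⟨h, h2.add_one⟩
    have e4 : r1 f (w.1, w.2 - 1) = f (w.1, w.2 - 1) := r1_of ⟨h, h2.sub_odd odd_one⟩
    rw [e1, e2, e3, e4, sg_even h2]; ring
  · have h1 : Even w.1 := Int.not_odd_iff_even.1 h
    have h2 : Odd w.2 := by
      rw [add_comm, Int.odd_add] at hw
      exact hw.2 h1
    have e1 : r1 f (w.1 + 1, w.2) = f (w.1 + 1, w.2) := r1_of ⟨h1.add_one, h2⟩
    have e2 : r1 f (w.1 - 1, w.2) = f (w.1 - 1, w.2) := r1_of ⟨h1.sub_odd odd_one, h2⟩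
    have e3 : r1 f (w.1, w.2 + 1) = 0 := r1_of_B0 ⟨h1, h2.add_one⟩
    have e4 : r1 f (w.1, w.2 - 1) = 0 := r1_of_B0 ⟨h1, h2.sub_odd odd_one⟩
    rw [e1, e2, e3, e4]; ring

theorem Kop_r0_sq {w : Pt} (hw : White w) :
    Kop (r0 f) w ^ 2 = if Odd w.1 then (f (w.1 + 1, w.2) - f (w.1 - 1, w.2)) ^ 2
      else (f (w.1, w.2 + 1) - f (w.1, w.2 - 1)) ^ 2 := by
  rw [Kop_r0_eq hw]
  split_ifs
  · rfl
  · rw [mul_pow, sq (sg w.2), sg_sq, one_mul]

theorem Kop_r1_sq {w : Pt} (hw : White w) :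
    Kop (r1 f) w ^ 2 = if Odd w.1 then (f (w.1, w.2 + 1) - f (w.1, w.2 - 1)) ^ 2
      else (f (w.1 + 1, w.2) - f (w.1 - 1, w.2)) ^ 2 := by
  rw [Kop_r1_eq hw]
  split_ifs <;> rfl

/-- the mirror image of `b` at `w` -/
def mirror (w b : Pt) : Pt := (2 * w.1 - b.1, 2 * w.2 - b.2)

theorem K_mul_Kop_r0 {b w : Pt} (hb : B0 b) (hw : w ∈ nbrs b) :
    K w b * Kop (r0 f) w = f b - f (mirror w b) := by
  have hww : White w := (mem_nbrs.1 hw).white hb.black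
  rw [Kop_r0_eq hww]
  simp only [nbrs, mem_insert, mem_singleton] at hw
  have ho : ¬ Odd b.1 := Int.not_odd_iff_even.2 hb.1
  rcases hw with rfl | rfl | rfl | rfl
  · rw [K_right', if_pos (hb.1.add_one)]
    have e1 : b.1 + 1 - 1 = b.1 := by ring
    have e2 : mirror (b.1 + 1, b.2) b = (b.1 + 1 + 1, b.2) := by
      unfold mirror; ext <;> simp only <;> ring
    simp only [e1, e2]
    ring
  · rw [K_left', if_pos (hb.1.sub_odd odd_one)]
    have e1 : b.1 - 1 + 1 = b.1 := by ring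
    have e2 : mirror (b.1 - 1, b.2) b = (b.1 - 1 - 1, b.2) := by
      unfold mirror; ext <;> simp only <;> ring
    simp only [e1, e2]
    ring
  · rw [K_up', if_neg ho]
    have e1 : b.2 + 1 - 1 = b.2 := by ring
    have e2 : mirror (b.1, b.2 + 1) b = (b.1, b.2 + 1 + 1) := by
      unfold mirror; ext <;> simp only <;> ring
    simp only [e1, e2, sg_even hb.2, sg_odd hb.2.add_one]
    ring
  · rw [K_down', if_neg ho]
    have e1 : b.2 - 1 + 1 = b.2 := by ring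
    have e2 : mirror (b.1, b.2 - 1) b = (b.1, b.2 - 1 - 1) := by
      unfold mirror; ext <;> simp only <;> ring
    simp only [e1, e2, sg_even hb.2, sg_odd (hb.2.sub_odd odd_one)]
    ring

/-- **the restricted `Kᵀ K`** is the Neumann Laplacian on (even,even) points and the Dirichlet
Laplacian on (odd,odd) points. -/
theorem IsCl.laplace (hC : IsCl C) (hf : ∀ b, B1 b → b ∉ C → f b = 0) {b : Pt} (hb : b ∈ C)
    (hbl : Black b) :
    ∑ w ∈ C.filter White, K w b * Kop f w = ∑ w ∈ (nbrs b).filter (· ∈ C), (f b - f (mirror w b)) := by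
  classical
  have h0 : ∀ g : Pt → ℝ, ∑ w ∈ C.filter White, K w b * g w
      = ∑ w ∈ (nbrs b).filter (· ∈ C), K w b * g w := by
    intro g
    have hsub : (nbrs b).filter (· ∈ C) ⊆ C.filter White := by
      intro w hw
      rw [mem_filter] at hw ⊢
      exact ⟨hw.2, (mem_nbrs.1 hw.1).white hbl⟩
    symm
    refine sum_subset hsub fun w hw hw' => ?_
    rw [K_eq_zero, zero_mul]
    intro h
    exact hw' (mem_filter.2 ⟨mem_nbrs.2 (adj_comm.1 h), (mem_filter.1 hw).1⟩)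
  rw [h0]
  rcases black_iff.1 hbl with h | h
  · have h1 : ∀ w ∈ (nbrs b).filter (· ∈ C), K w b * Kop f w
        = (f b - f (mirror w b)) + K w b * Kop (r1 f) w := by
      intro w hw
      have hw' := (mem_filter.1 hw).1
      rw [Kop_split ((mem_nbrs.1 hw').white hbl), mul_add, K_mul_Kop_r0 h hw']
    rw [sum_congr rfl h1, sum_add_distrib, ← h0, sum_KT_eq, KTop_Kop_r1 h, add_zero]
    intro w hw hwC
    have hwh : White w := (mem_nbrs.1 hw).white hbl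
    have hwC' : w ∉ C := fun h' => hwC (mem_filter.2 ⟨h', hwh⟩)
    rw [← sum_nbrs_K]
    refine sum_eq_zero fun b' hb' => ?_
    by_cases hb1 : B1 b'
    · have : b' ∉ C := by
        intro hbC
        exact hwC' (hC.nbr_mem hbC hb1 (mem_nbrs_comm.1 hb'))
      rw [r1_of hb1, hf b' hb1 this, mul_zero]
    · unfold r1; rw [if_neg hb1, mul_zero]
  · have h1 : (nbrs b).filter (· ∈ C) = nbrs b := by
      rw [filter_eq_self]
      exact fun w hw => hC.nbr_mem hb h hw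
    rw [h1, sum_nbrs_KT, KTop_Kop, sum_nbrs]
    unfold mirror
    simp only
    have e1 : 2 * (b.1 + 1) - b.1 = b.1 + 2 := by ring
    have e2 : 2 * (b.1 - 1) - b.1 = b.1 - 2 := by ring
    have e3 : 2 * (b.2 + 1) - b.2 = b.2 + 2 := by ring
    have e4 : 2 * (b.2 - 1) - b.2 = b.2 - 2 := by ring
    have e5 : 2 * b.1 - b.1 = b.1 := by ring
    have e6 : 2 * b.2 - b.2 = b.2 := by ring
    rw [e1, e2, e3, e4, e5, e6]
    ring

end Vale.Agent.P155
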