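import Vale.Agent.P155.Defs2

/-!
# P155, block A3b: crossing rules for the parity interior of a lattice cycle
-/

namespace Vale.Agent.P155

open Finset

namespace LatCycle

variable (γ : LatCycle)

instance : NeZero γ.n := ⟨by have := γ.hn; omega⟩

/-- The undirected edge `{(x,y),(x+1,y)}` belongs to the cycle. -/
def hedge (x y : ℤ) : Prop :=
  ∃ i, (γ.c i = (x, y) ∧ γ.c (i + 1) = (x + 1, y)) ∨ (γ.c i = (x + 1, y) ∧ γ.c (i + 1) = (x, y))

/-- the edge `{u,v}` belongs to the cycle -/
def edge (u v : Pt) : Prop := ∃ i, (γ.c i = u ∧ γ.c (i + 1) = v) ∨ (γ.c i = v ∧ γ.c (i + 1) = u)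

theorem vedge_iff (x y : ℤ) : γ.vedge x y ↔ γ.edge (x, y) (x, y + 1) := Iff.rfl

theorem hedge_iff (x y : ℤ) : γ.hedge x y ↔ γ.edge (x, y) (x + 1, y) := Iff.rfl

variable {γ}

theorem edge_comm {u v : Pt} : γ.edge u v ↔ γ.edge v u := by
  unfold edge
  constructor <;> rintro ⟨i, h | h⟩
  · exact ⟨i, Or.inr h⟩
  · exact ⟨i, Or.inl h⟩
  · exact ⟨i, Or.inr h⟩
  · exact ⟨i, Or.inl h⟩

theorem edge.mem_left {u v : Pt} (h : γ.edge u v) : u ∈ γ.verts := by
  obtain ⟨i, h | h⟩ := h
  · exact ⟨i, h.1⟩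
  · exact ⟨i + 1, h.2⟩

theorem edge.mem_right {u v : Pt} (h : γ.edge u v) : v ∈ γ.verts := (edge_comm.1 h).mem_left

theorem edge.adj {u v : Pt} (h : γ.edge u v) : Adj u v := by
  obtain ⟨i, h | h⟩ := h
  · rw [← h.1, ← h.2]; exact γ.adj i
  · rw [← h.1, ← h.2]
    have := γ.adj i
    unfold Adj at this ⊢
    rw [abs_sub_comm (γ.c (i + 1)).1, abs_sub_comm (γ.c (i + 1)).2]
    exact this

theorem verts_finite : γ.verts.Finite := Set.finite_range _

/-- edges at `c i` lead to `c (i+1)` or `c (i-1)` -/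
theorem edge_at {i : ZMod γ.n} {v : Pt} :
    γ.edge (γ.c i) v ↔ v = γ.c (i + 1) ∨ v = γ.c (i - 1) := by
  constructor
  · rintro ⟨j, h | h⟩
    · left
      have : j = i := γ.inj h.1
      rw [← h.2, this]
    · right
      have : j + 1 = i := γ.inj h.2
      rw [← h.1, ← this, add_sub_cancel_right]
  · rintro (rfl | rfl)
    · exact ⟨i, Or.inl ⟨rfl, rfl⟩⟩
    · exact ⟨i - 1, Or.inr ⟨rfl, by rw [sub_add_cancel]⟩⟩

theorem succ_ne_pred (i : ZMod γ.n) : γ.c (i + 1) ≠ γ.c (i - 1) := by
  intro h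
  have h1 := γ.inj h
  have h2 : (2 : ZMod γ.n) = 0 := by
    have : i + 1 - (i - 1) = 0 := sub_eq_zero.2 h1
    have e : i + 1 - (i - 1) = 2 := by ring
    rw [← e, this]
  have h3 : ((2 : ℕ) : ZMod γ.n) = 0 := by exact_mod_cast h2
  rw [ZMod.natCast_eq_zero_iff] at h3
  have := Nat.le_of_dvd (by norm_num) h3
  have := γ.hn
  omega

theorem succ_ne (i : ZMod γ.n) : γ.c (i + 1) ≠ γ.c i := by
  intro h
  have := γ.adj i
  rw [h] at this
  unfold Adj at this
  simp at this

section parity

open Classical in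
/-- indicator in `ZMod 2` -/
noncomputable def ind2 (p : Prop) : ZMod 2 := if p then 1 else 0

theorem ind2_true {p : Prop} (h : p) : ind2 p = 1 := by unfold ind2; rw [if_pos h]
theorem ind2_false {p : Prop} (h : ¬ p) : ind2 p = 0 := by unfold ind2; rw [if_neg h]

theorem ind2_eq_one {p : Prop} : ind2 p = 1 ↔ p := by
  constructor
  · intro h
    by_contra hp
    rw [ind2_false hp] at h
    exact absurd h (by decide)
  · exact ind2_true

theorem ind2_eq_zero {p : Prop} : ind2 p = 0 ↔ ¬ p := by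
  constructor
  · intro h hp
    rw [ind2_true hp] at h
    exact absurd h (by decide)
  · exact ind2_false

theorem add_self2 (a : ZMod 2) : a + a = 0 := by revert a; decide

theorem ind2_congr {p q : Prop} (h : p ↔ q) : ind2 p = ind2 q := by rw [propext h]

theorem adj_cases {u v : Pt} (h : Adj u v) :
    v = (u.1 + 1, u.2) ∨ v = (u.1 - 1, u.2) ∨ v = (u.1, u.2 + 1) ∨ v = (u.1, u.2 - 1) := by
  have := mem_nbrs.2 h
  simpa [nbrs] using this

theorem ind2_or {p q : Prop} (h : ¬ (p ∧ q)) : ind2 (p ∨ q) = ind2 p + ind2 q := by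
  by_cases hp : p
  · have hq : ¬ q := fun hq => h ⟨hp, hq⟩
    rw [ind2_true (Or.inl hp), ind2_true hp, ind2_false hq, add_zero]
  · by_cases hq : q
    · rw [ind2_true (Or.inr hq), ind2_false hp, ind2_true hq, zero_add]
    · rw [ind2_false (not_or.2 ⟨hp, hq⟩), ind2_false hp, ind2_false hq, add_zero]

theorem sum_dir {v p : Pt} (h : Adj v p) :
    ind2 ((v.1 + 1, v.2) = p) + ind2 ((v.1 - 1, v.2) = p) + ind2 ((v.1, v.2 + 1) = p)
      + ind2 ((v.1, v.2 - 1) = p) = 1 := by
  rcases adj_cases h with rfl | rfl | rfl | rfl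
  · rw [ind2_true rfl, ind2_false, ind2_false, ind2_false]
    · simp
    all_goals rw [Prod.mk.injEq]; omega
  · rw [ind2_false, ind2_true rfl, ind2_false, ind2_false]
    · simp
    all_goals rw [Prod.mk.injEq]; omega
  · rw [ind2_false, ind2_false, ind2_true rfl, ind2_false]
    · simp
    all_goals rw [Prod.mk.injEq]; omega
  · rw [ind2_false, ind2_false, ind2_false, ind2_true rfl]
    · simp
    all_goals rw [Prod.mk.injEq]; omega

/-- every vertex has even degree in the cycle -/
theorem deg_even (v : Pt) :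
    ind2 (γ.edge v (v.1 + 1, v.2)) + ind2 (γ.edge v (v.1 - 1, v.2))
      + ind2 (γ.edge v (v.1, v.2 + 1)) + ind2 (γ.edge v (v.1, v.2 - 1)) = 0 := by
  by_cases hv : v ∈ γ.verts
  · obtain ⟨i, rfl⟩ := hv
    have h1 : Adj (γ.c i) (γ.c (i + 1)) := γ.adj i
    have h2 : Adj (γ.c i) (γ.c (i - 1)) := by
      have := γ.adj (i - 1)
      rw [sub_add_cancel] at this
      unfold Adj at this ⊢
      rw [abs_sub_comm (γ.c i).1, abs_sub_comm (γ.c i).2]
      exact this
    have h3 := succ_ne_pred i
    have key : ∀ v : Pt, ind2 (γ.edge (γ.c i) v)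
        = ind2 (v = γ.c (i + 1)) + ind2 (v = γ.c (i - 1)) := by
      intro v
      rw [ind2_congr edge_at, ind2_or]
      rintro ⟨e1, e2⟩
      exact h3 (e1.symm.trans e2)
    rw [key, key, key, key]
    have s1 := sum_dir h1
    have s2 := sum_dir h2
    have : (1 : ZMod 2) + 1 = 0 := by decide
    rw [← this, ← s1]
    nth_rewrite 2 [s1]
    rw [← s2]
    ring
  · have h0 : ∀ w, ind2 (γ.edge v w) = 0 := fun w => ind2_false fun h => hv h.mem_left
    simp [h0]

/-- the set of crossings of a left ray -/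
theorem ray_finite (x y : ℤ) : {j : ℤ | j ≤ x ∧ γ.vedge j y}.Finite := by
  refine ((verts_finite (γ := γ)).image (fun v : Pt => v.1)).subset ?_
  rintro j ⟨_, hj⟩
  exact ⟨(j, y), (((vedge_iff γ j y).1 hj)).mem_left, rfl⟩

theorem odd_iff_cast (m : ℕ) : Odd m ↔ (m : ZMod 2) = 1 := by
  constructor
  · rintro ⟨k, rfl⟩
    push_cast
    have : (2 : ZMod 2) = 0 := by decide
    rw [this]; simp
  · intro h
    rcases Nat.even_or_odd m with h' | h'
    · obtain ⟨k, rfl⟩ := h'
      push_cast at h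
      rw [add_self2] at h
      exact absurd h (by decide)
    · exact h'

theorem ind2_inside (f : Pt) :
    ind2 (γ.inside f) = ((Set.ncard {j : ℤ | j ≤ f.1 ∧ γ.vedge j f.2} : ℕ) : ZMod 2) := by
  have h := odd_iff_cast (Set.ncard {j : ℤ | j ≤ f.1 ∧ γ.vedge j f.2})
  by_cases hf : γ.inside f
  · rw [ind2_true hf]; exact (h.1 hf).symm
  · rw [ind2_false hf]
    have h2 : ((Set.ncard {j : ℤ | j ≤ f.1 ∧ γ.vedge j f.2} : ℕ) : ZMod 2) ≠ 1 :=
      fun h' => hf (h.2 h')
    generalize ((Set.ncard {j : ℤ | j ≤ f.1 ∧ γ.vedge j f.2} : ℕ) : ZMod 2) = z at h2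
    revert z; decide

/-- crossing a vertical edge -/
theorem cross_v (x y : ℤ) :
    ind2 (γ.inside (x, y)) = ind2 (γ.inside (x - 1, y)) + ind2 (γ.vedge x y) := by
  rw [ind2_inside, ind2_inside]
  simp only
  by_cases h : γ.vedge x y
  · have e : {j : ℤ | j ≤ x ∧ γ.vedge j y} = insert x {j : ℤ | j ≤ x - 1 ∧ γ.vedge j y} := by
      ext j
      simp only [Set.mem_ofPred_eq, Set.mem_insert_iff]
      constructor
      · rintro ⟨h1, h2⟩
        by_cases hj : j = x
        · exact Or.inl hj
        · exact Or.inr ⟨by omega, h2⟩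
      · rintro (rfl | ⟨h1, h2⟩)
        · exact ⟨le_refl _, h⟩
        · exact ⟨by omega, h2⟩
    rw [e, Set.ncard_insert_of_notMem _ (ray_finite _ _), ind2_true h]
    · push_cast; rfl
    · rintro ⟨h1, _⟩; omega
  · have e : {j : ℤ | j ≤ x ∧ γ.vedge j y} = {j : ℤ | j ≤ x - 1 ∧ γ.vedge j y} := by
      ext j
      simp only [Set.mem_ofPred_eq]
      constructor
      · rintro ⟨h1, h2⟩
        have : j ≠ x := fun hj => h (hj ▸ h2)
        exact ⟨by omega, h2⟩
      · rintro ⟨h1, h2⟩
        exact ⟨by omega, h2⟩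
    rw [e, ind2_false h, add_zero]

/-- a bound for all coordinates of the cycle -/
theorem exists_bound : ∃ M : ℤ, 0 ≤ M ∧ ∀ v ∈ γ.verts, |v.1| ≤ M ∧ |v.2| ≤ M := by
  have h := (verts_finite (γ := γ))
  obtain ⟨M1, hM1⟩ := (h.image (fun v : Pt => |v.1|)).bddAbove
  obtain ⟨M2, hM2⟩ := (h.image (fun v : Pt => |v.2|)).bddAbove
  refine ⟨max 0 (max M1 M2), le_max_left _ _, fun v hv => ⟨?_, ?_⟩⟩
  · exact (hM1 ⟨v, hv, rfl⟩).trans ((le_max_left _ _).trans (le_max_right _ _))
  · exact (hM2 ⟨v, hv, rfl⟩).trans ((le_max_right _ _).trans (le_max_right _ _))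

theorem not_inside_left {M : ℤ} (hM : ∀ v ∈ γ.verts, |v.1| ≤ M ∧ |v.2| ≤ M) {x y : ℤ}
    (h : x < -M) : ¬ γ.inside (x, y) := by
  intro hi
  unfold inside at hi
  have e : {j : ℤ | j ≤ (x, y).1 ∧ γ.vedge j (x, y).2} = ∅ := by
    ext j
    simp only [Set.mem_ofPred_eq, Set.mem_empty_iff_false, iff_false, not_and]
    intro hj hv
    have := (hM _ ((vedge_iff γ j y).1 hv).mem_left).1
    simp only at this
    rw [abs_le] at this
    omega
  rw [e] at hi
  simp at hi

theorem not_inside_vert {M : ℤ} (hM : ∀ v ∈ γ.verts, |v.1| ≤ M ∧ |v.2| ≤ M) {x y : ℤ}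
    (h : M < y ∨ y < -M) : ¬ γ.inside (x, y) := by
  intro hi
  unfold inside at hi
  have e : {j : ℤ | j ≤ (x, y).1 ∧ γ.vedge j (x, y).2} = ∅ := by
    ext j
    simp only [Set.mem_ofPred_eq, Set.mem_empty_iff_false, iff_false, not_and]
    intro hj hv
    have := (hM _ ((vedge_iff γ j y).1 hv).mem_left).2
    simp only at this
    rw [abs_le] at this
    omega
  rw [e] at hi
  simp at hi

/-- crossing a horizontal edge -/
theorem cross_h (x y : ℤ) :
    ind2 (γ.inside (x, y)) = ind2 (γ.inside (x, y - 1)) + ind2 (γ.hedge x y) := by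
  obtain ⟨M, hM0, hM⟩ := exists_bound (γ := γ)
  have key : ∀ k : ℕ, ∀ x : ℤ, x = -M - 2 + k →
      ind2 (γ.inside (x, y)) = ind2 (γ.inside (x, y - 1)) + ind2 (γ.hedge x y) := by
    intro k
    induction k with
    | zero =>
      intro x hx
      have h1 : x < -M := by simp at hx; omega
      rw [ind2_false (not_inside_left hM h1), ind2_false (not_inside_left hM h1), ind2_false,
        add_zero]
      intro h
      have h2 := ((hedge_iff γ x y).1 h).mem_left
      have := (hM _ h2).1
      simp only at this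
      rw [abs_le] at this
      omega
    | succ k ih =>
      intro x hx
      have ih' := ih (x - 1) (by push_cast at hx; omega)
      have c1 := cross_v (γ := γ) x y
      have c2 := cross_v (γ := γ) x (y - 1)
      have d := deg_even (γ := γ) (x, y)
      simp only at d
      have e1 : ind2 (γ.edge (x, y) (x + 1, y)) = ind2 (γ.hedge x y) := rfl
      have e2 : ind2 (γ.edge (x, y) (x - 1, y)) = ind2 (γ.hedge (x - 1) y) := by
        refine ind2_congr ?_
        rw [hedge_iff, sub_add_cancel]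
        exact edge_comm
      have e3 : ind2 (γ.edge (x, y) (x, y + 1)) = ind2 (γ.vedge x y) := rfl
      have e4 : ind2 (γ.edge (x, y) (x, y - 1)) = ind2 (γ.vedge x (y - 1)) := by
        refine ind2_congr ?_
        rw [vedge_iff, sub_add_cancel]
        exact edge_comm
      rw [e1, e2, e3, e4] at d
      rw [c1, c2, ih']
      generalize ind2 (γ.inside (x - 1, y - 1)) = a1 at *
      generalize ind2 (γ.hedge (x - 1) y) = a2 at *
      generalize ind2 (γ.vedge x y) = a3 at *
      generalize ind2 (γ.vedge x (y - 1)) = a4 at *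
      generalize ind2 (γ.hedge x y) = a5 at *
      clear * - d
      revert a1 a2 a3 a4 a5
      decide
  rcases le_or_gt (-M - 2) x with h | h
  · exact key (x - (-M - 2)).toNat x (by rw [Int.toNat_of_nonneg (by omega)]; ring)
  · have h1 : x < -M := by omega
    rw [ind2_false (not_inside_left hM h1), ind2_false (not_inside_left hM h1), ind2_false,
      add_zero]
    intro h
    have h2 := ((hedge_iff γ x y).1 h).mem_left
    have := (hM _ h2).1
    simp only at this
    rw [abs_le] at this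
    omega

theorem not_inside_right {M : ℤ} (hM : ∀ v ∈ γ.verts, |v.1| ≤ M ∧ |v.2| ≤ M)
    {x y : ℤ} (h : M < x) : ¬ γ.inside (x, y) := by
  have key : ∀ k : ℕ, ∀ y : ℤ, y = -M - 1 + k → ¬ γ.inside (x, y) := by
    intro k
    induction k with
    | zero => intro y hy; exact not_inside_vert hM (by right; simp at hy; omega)
    | succ k ih =>
      intro y hy
      have ih' := ih (y - 1) (by push_cast at hy; omega)
      have c := cross_h (γ := γ) x y
      have hh : ¬ γ.hedge x y := by
        intro h'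
        have := (hM _ ((hedge_iff γ x y).1 h').mem_left).1
        simp only at this
        rw [abs_le] at this
        omega
      rw [ind2_false ih', ind2_false hh, add_zero] at c
      exact ind2_eq_zero.1 c
  rcases le_or_gt (-M - 1) y with h' | h'
  · exact key (y - (-M - 1)).toNat y (by rw [Int.toNat_of_nonneg (by omega)]; ring)
  · exact not_inside_vert hM (by right; omega)

/-- the interior is finite -/
theorem inside_finite : {f | γ.inside f}.Finite := by
  obtain ⟨M, hM0, hM⟩ := exists_bound (γ := γ)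
  refine ((Set.finite_Icc (-M) M).prod (Set.finite_Icc (-M) M)).subset ?_
  rintro ⟨x, y⟩ h
  simp only [Set.mem_prod, Set.mem_Icc]
  refine ⟨⟨?_, ?_⟩, ?_, ?_⟩
  · by_contra hx; exact not_inside_left hM (by omega) h
  · by_contra hx; exact not_inside_right hM (by omega) h
  · by_contra hx; exact not_inside_vert hM (by right; omega) h
  · by_contra hx; exact not_inside_vert hM (by left; omega) h

theorem inside_iff_v (x y : ℤ) (h : ¬ γ.vedge x y) : γ.inside (x, y) ↔ γ.inside (x - 1, y) := by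
  have c := cross_v (γ := γ) x y
  rw [ind2_false h, add_zero] at c
  constructor
  · intro h'; exact ind2_eq_one.1 (c ▸ ind2_true h')
  · intro h'; exact ind2_eq_one.1 (c.symm ▸ ind2_true h')

theorem inside_iff_h (x y : ℤ) (h : ¬ γ.hedge x y) : γ.inside (x, y) ↔ γ.inside (x, y - 1) := by
  have c := cross_h (γ := γ) x y
  rw [ind2_false h, add_zero] at c
  constructor
  · intro h'; exact ind2_eq_one.1 (c ▸ ind2_true h')
  · intro h'; exact ind2_eq_one.1 (c.symm ▸ ind2_true h')

theorem inside_iff_v' (x y : ℤ) (h : γ.vedge x y) : γ.inside (x, y) ↔ ¬ γ.inside (x - 1, y) := by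
  have c := cross_v (γ := γ) x y
  rw [ind2_true h] at c
  constructor
  · intro h' h2
    rw [ind2_true h', ind2_true h2] at c
    exact absurd c (by decide)
  · intro h'
    rw [ind2_false h', zero_add] at c
    exact ind2_eq_one.1 c

theorem inside_iff_h' (x y : ℤ) (h : γ.hedge x y) : γ.inside (x, y) ↔ ¬ γ.inside (x, y - 1) := by
  have c := cross_h (γ := γ) x y
  rw [ind2_true h] at c
  constructor
  · intro h' h2
    rw [ind2_true h', ind2_true h2] at c
    exact absurd c (by decide)
  · intro h'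
    rw [ind2_false h', zero_add] at c
    exact ind2_eq_one.1 c

/-- the four faces at a vertex off the cycle have the same type -/
theorem corner_iff {v : Pt} (hv : v ∉ γ.verts) :
    (γ.inside (v.1 - 1, v.2) ↔ γ.inside v) ∧ (γ.inside (v.1, v.2 - 1) ↔ γ.inside v) ∧
      (γ.inside (v.1 - 1, v.2 - 1) ↔ γ.inside v) := by
  have h1 : ¬ γ.vedge v.1 v.2 := fun h => hv ((vedge_iff γ _ _).1 h).mem_left
  have h2 : ¬ γ.hedge v.1 v.2 := fun h => hv ((hedge_iff γ _ _).1 h).mem_left
  have h3 : ¬ γ.hedge (v.1 - 1) v.2 := by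
    intro h
    have := ((hedge_iff γ _ _).1 h).mem_right
    rw [sub_add_cancel] at this
    exact hv this
  have k1 : γ.inside v ↔ γ.inside (v.1 - 1, v.2) := inside_iff_v v.1 v.2 h1
  have k2 : γ.inside v ↔ γ.inside (v.1, v.2 - 1) := inside_iff_h v.1 v.2 h2
  have k3 := inside_iff_h (γ := γ) (v.1 - 1) v.2 h3
  exact ⟨k1.symm, k2.symm, k3.symm.trans k1.symm⟩

end parity

end LatCycle

end Vale.Agent.P155
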