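import Vale.Agent.P155.A.JCT2
import Vale.Agent.P155.L.Cycle

/-!
# P155, block A1: loops inside a Temperleyan graph
-/

namespace Vale.Agent.P155.A1

open Relation LatCycle

/-! ### The Temperleyan graph -/

theorem corner_of {v F : Pt} (h1 : F.1 = v.1 ∨ F.1 + 1 = v.1) (h2 : F.2 = v.2 ∨ F.2 + 1 = v.2) :
    corner v F := ⟨h1.imp id (fun h => by omega), h2.imp id (fun h => by omega)⟩

theorem mem_faceSet {T : Temp} {f : Pt} : f ∈ T.faceSet ↔ T.γ.inside (f.1 / 2, f.2 / 2) := by
  constructor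
  · rintro ⟨F, hF, h1, h2, h3, h4⟩
    have e : F = (f.1 / 2, f.2 / 2) := by
      apply Prod.ext <;> simp only <;> omega
    rw [← e]; exact hF
  · intro h
    exact ⟨(f.1 / 2, f.2 / 2), h, by simp only; omega, by simp only; omega, by simp only; omega,
      by simp only; omega⟩

theorem faceSet_finite (T : Temp) : T.faceSet.Finite := by
  have h := inside_finite (γ := T.γ)
  obtain ⟨M, hM0, hM⟩ := exists_bound (γ := T.γ)
  refine ((Set.finite_Icc (-(2 * M + 2)) (2 * M + 2)).prod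
    (Set.finite_Icc (-(2 * M + 2)) (2 * M + 2))).subset ?_
  rintro ⟨x, y⟩ ⟨F, hF, h1, h2, h3, h4⟩
  simp only at h1 h2 h3 h4
  have a1 : ¬ F.1 < -M := fun h => not_inside_left hM h hF
  have a2 : ¬ M < F.1 := fun h => not_inside_right hM h hF
  have a3 : ¬ F.2 < -M := fun h => not_inside_vert hM (Or.inr h) hF
  have a4 : ¬ M < F.2 := fun h => not_inside_vert hM (Or.inl h) hF
  simp only [Set.mem_prod, Set.mem_Icc]
  omega

theorem closedVerts_finite (T : Temp) : T.closedVerts.Finite := by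
  obtain ⟨M, hM0, hM⟩ := exists_bound (γ := T.γ)
  refine ((Set.finite_Icc (-(2 * M + 2)) (2 * M + 2)).prod
    (Set.finite_Icc (-(2 * M + 2)) (2 * M + 2))).subset ?_
  rintro ⟨x, y⟩ ⟨F, hF, h1, h2, h3, h4⟩
  simp only at h1 h2 h3 h4
  have a1 : ¬ F.1 < -M := fun h => not_inside_left hM h hF
  have a2 : ¬ M < F.1 := fun h => not_inside_right hM h hF
  have a3 : ¬ F.2 < -M := fun h => not_inside_vert hM (Or.inr h) hF
  have a4 : ¬ M < F.2 := fun h => not_inside_vert hM (Or.inl h) hF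
  simp only [Set.mem_prod, Set.mem_Icc]
  omega

theorem mem_V {T : Temp} {v : Pt} : v ∈ T.V ↔ v ∈ T.closedVerts ∧ v ≠ T.v0 := by
  have h : (T.closedVerts \ {T.v0}).Finite := (closedVerts_finite T).subset Set.sdiff_subset
  unfold Temp.V
  rw [dif_pos h, Set.Finite.mem_toFinset]
  simp

/-- a fine cycle in the closed polygon encloses only faces of the polygon -/
theorem inside_faceSet {T : Temp} {γ : LatCycle} (hγ : γ.verts ⊆ T.closedVerts) {f : Pt}
    (hf : γ.inside f) : f ∈ T.faceSet := by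
  by_contra hcon
  rw [mem_faceSet] at hcon
  -- centre of a coarse cell
  let m : Pt → Pt := fun F => (2 * F.1 + 1, 2 * F.2 + 1)
  have hm : ∀ F, m F = (2 * F.1 + 1, 2 * F.2 + 1) := fun _ => rfl
  have hminj : Function.Injective m := by
    intro F G h
    simp only [hm, Prod.mk.injEq] at h
    exact Prod.ext (by omega) (by omega)
  have hmoff : ∀ F, ¬ T.γ.inside F → m F ∉ γ.verts := by
    intro F hF h
    obtain ⟨G, hG, h1, h2, h3, h4⟩ := hγ h
    simp only [hm] at h1 h2 h3 h4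
    have e : G = F := Prod.ext (by omega) (by omega)
    exact hF (e ▸ hG)
  have hfin : {G | γ.inside (m G)}.Finite :=
    (Set.Finite.preimage (f := m) (s := {F | γ.inside F}) hminj.injOn inside_finite)
  obtain ⟨G, hG1, hG2⟩ := exists_outside_far (γ := T.γ) _ hfin
  have hr : T.γ.Reach (f.1 / 2, f.2 / 2) G := reach_of_inside_iff (by tauto)
  -- a white vertex between two outside cells
  have key : ∀ A B, T.γ.FStep A B → ¬ T.γ.inside A → ¬ T.γ.inside B →
      (γ.inside (m A) ↔ γ.inside (m B)) := by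
    intro A B hAB hA hB
    have hWoff : ∀ W : Pt, (∀ F, 2 * F.1 ≤ W.1 → W.1 ≤ 2 * F.1 + 2 → 2 * F.2 ≤ W.2 →
        W.2 ≤ 2 * F.2 + 2 → F = A ∨ F = B) → W ∉ γ.verts := by
      intro W hW h
      obtain ⟨F, hF, h1, h2, h3, h4⟩ := hγ h
      rcases hW F h1 h2 h3 h4 with rfl | rfl
      · exact hA hF
      · exact hB hF
    have fin : ∀ W gA gB : Pt, W ∉ γ.verts → corner (m A) gA → corner (m B) gB →
        corner W gA → corner W gB → (γ.inside (m A) ↔ γ.inside (m B)) := by
      intro W gA gB hW h1 h2 h3 h4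
      rw [← inside_corner (hmoff A hA) h1, ← inside_corner (hmoff B hB) h2,
        inside_corner hW h3, inside_corner hW h4]
    cases hAB with
    | right x y h =>
      refine fin (2 * x + 2, 2 * y + 1) (2 * x + 1, 2 * y + 1) (2 * x + 2, 2 * y + 1)
        (hWoff _ ?_) ?_ ?_ ?_ ?_
      · intro F h1 h2 h3 h4
        simp only at h1 h2 h3 h4
        have : F.1 = x ∨ F.1 = x + 1 := by omega
        rcases this with h5 | h5
        · left; exact Prod.ext h5 (by simp only; omega)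
        · right; exact Prod.ext h5 (by simp only; omega)
      all_goals (refine corner_of ?_ ?_ <;> simp only [hm, true_or, or_true] <;> omega)
    | left x y h =>
      refine fin (2 * x, 2 * y + 1) (2 * x, 2 * y + 1) (2 * x - 1, 2 * y + 1)
        (hWoff _ ?_) ?_ ?_ ?_ ?_
      · intro F h1 h2 h3 h4
        simp only at h1 h2 h3 h4
        have : F.1 = x ∨ F.1 = x - 1 := by omega
        rcases this with h5 | h5
        · left; exact Prod.ext h5 (by simp only; omega)
        · right; exact Prod.ext h5 (by simp only; omega)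
      all_goals (refine corner_of ?_ ?_ <;> simp only [hm, true_or, or_true] <;> omega)
    | up x y h =>
      refine fin (2 * x + 1, 2 * y + 2) (2 * x + 1, 2 * y + 1) (2 * x + 1, 2 * y + 2)
        (hWoff _ ?_) ?_ ?_ ?_ ?_
      · intro F h1 h2 h3 h4
        simp only at h1 h2 h3 h4
        have : F.2 = y ∨ F.2 = y + 1 := by omega
        rcases this with h5 | h5
        · left; exact Prod.ext (by simp only; omega) h5
        · right; exact Prod.ext (by simp only; omega) h5
      all_goals (refine corner_of ?_ ?_ <;> simp only [hm, true_or, or_true] <;> omega)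
    | down x y h =>
      refine fin (2 * x + 1, 2 * y) (2 * x + 1, 2 * y) (2 * x + 1, 2 * y - 1)
        (hWoff _ ?_) ?_ ?_ ?_ ?_
      · intro F h1 h2 h3 h4
        simp only at h1 h2 h3 h4
        have : F.2 = y ∨ F.2 = y - 1 := by omega
        rcases this with h5 | h5
        · left; exact Prod.ext (by simp only; omega) h5
        · right; exact Prod.ext (by simp only; omega) h5
      all_goals (refine corner_of ?_ ?_ <;> simp only [hm, true_or, or_true] <;> omega)
  have hstart : γ.inside (m (f.1 / 2, f.2 / 2)) := by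
    rw [← inside_corner (hmoff _ hcon) (F := f) ?_]
    · exact hf
    · refine corner_of ?_ ?_ <;> simp only [hm] <;> omega
  have hend : γ.inside (m G) := by
    have h2 : ∀ B, T.γ.Reach (f.1 / 2, f.2 / 2) B → γ.inside (m B) := by
      intro B hB
      unfold Reach at hB
      induction hB with
      | refl => exact hstart
      | @tail b c hb hs ih =>
        have hb1 : ¬ T.γ.inside b := fun h => hcon ((Reach.inside_iff hb).2 h)
        have hc1 : ¬ T.γ.inside c := fun h => hb1 (hs.inside_iff.2 h)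
        exact (key b c hs hb1 hc1).1 ih
    exact h2 G hr
  exact hG1 hend

theorem faceSet_sub_closedVerts {T : Temp} {f : Pt} (h : f ∈ T.faceSet) : f ∈ T.closedVerts := by
  obtain ⟨F, hF, h1, h2, h3, h4⟩ := h
  exact ⟨F, hF, h1, by omega, h3, by omega⟩

/-- the deleted vertex touches a face outside the polygon -/
theorem v0_outside (T : Temp) : ∃ g, corner T.v0 g ∧ g ∉ T.faceSet := by
  obtain ⟨F, hF, hF2⟩ := edge_outside (γ := T.γ) T.i0
  obtain ⟨⟨h1, h2⟩, _⟩ := hF
  refine ⟨(2 * (T.γ.c T.i0).1 - (if F.1 = (T.γ.c T.i0).1 then 0 else 1),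
    2 * (T.γ.c T.i0).2 - (if F.2 = (T.γ.c T.i0).2 then 0 else 1)), ?_, ?_⟩
  · unfold corner Temp.v0
    constructor <;> simp only <;> split_ifs <;> omega
  · rw [mem_faceSet]
    simp only
    intro h
    apply hF2
    convert h using 1
    apply Prod.ext
    · simp only
      split_ifs with h5
      · omega
      · omega
    · simp only
      split_ifs with h5
      · omega
      · omega

/-- a point strictly inside a fine cycle in `T` is a vertex of `T` -/
theorem strict_inside_mem {T : Temp} {γ : LatCycle} (hγ : γ.verts ⊆ T.closedVerts) {v : Pt}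
    (hv : v ∉ γ.verts) (h : γ.inside v) : v ∈ T.V := by
  rw [mem_V]
  refine ⟨faceSet_sub_closedVerts (inside_faceSet hγ h), ?_⟩
  rintro rfl
  obtain ⟨g, hg1, hg2⟩ := v0_outside T
  exact hg2 (inside_faceSet hγ ((inside_corner hv hg1).2 h))

/-! ### Loops -/

variable {V : Finset Pt} {ω : Conf}

/-- the cycle of a loop, with the partner relation along its edges -/
theorem exists_cycle' (hω : ω ∈ DD V) {L : Set Pt} (hL : L ∈ Loops ω) :
    ∃ γ : LatCycle, γ.verts = L ∧ (∀ j y, vedgeL ω L j y ↔ γ.vedge j y) ∧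
      (∀ f, surr ω L f ↔ γ.inside f) ∧ (∀ u v, γ.edge u v → (v = ω.1 u ∨ v = ω.2 u)) := by
  obtain ⟨v, hv, rfl⟩ := hL
  refine ⟨Vale.Agent.P155.L.cyc hω hv, Vale.Agent.P155.L.cyc_verts hω hv, Vale.Agent.P155.L.vedge_iff hω hv, Vale.Agent.P155.L.surr_iff hω hv, ?_⟩
  rintro a b ⟨i, ⟨h1, h2⟩ | ⟨h1, h2⟩⟩
  · rw [← h1, ← h2]; exact Vale.Agent.P155.L.cyc_next hω hv i
  · rw [← h1, ← h2]
    rcases Vale.Agent.P155.L.cyc_next hω hv i with h | h
    · left; rw [h, Vale.Agent.P155.L.inv1 hω]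
    · right; rw [h, Vale.Agent.P155.L.inv2 hω]

/-- **L_step** -/
theorem L_step (hω : ω ∈ DD V) {L : Set Pt} (hL : L ∈ Loops ω) {f g : Pt} (h : Adj f g)
    (hf : surr ω L f) (hg : ¬ surr ω L g) :
    ∃ u v, u ∈ L ∧ v ∈ L ∧ Adj u v ∧ (v = ω.1 u ∨ v = ω.2 u) ∧ side u v f ∧ side u v g ∧
      u ∈ box f 1 ∧ v ∈ box f 1 := by
  obtain ⟨γ, h1, _, h3, h4⟩ := exists_cycle' hω hL
  obtain ⟨u, v, he, hs1, hs2⟩ := common_edge h ((h3 f).1 hf) (fun h' => hg ((h3 g).2 h'))
  refine ⟨u, v, h1 ▸ he.mem_left, h1 ▸ he.mem_right, he.adj, h4 u v he, hs1, hs2, ?_, ?_⟩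
  · obtain ⟨⟨a1, a2⟩, _⟩ := hs1
    simp only [box, Finset.mem_product, Finset.mem_Icc, Nat.cast_one]
    omega
  · obtain ⟨_, ⟨a1, a2⟩⟩ := hs1
    simp only [box, Finset.mem_product, Finset.mem_Icc, Nat.cast_one]
    omega

/-- **L_in** -/
theorem L_in {T : Temp} (hω : ω ∈ DD T.V) {L : Set Pt} (hL : L ∈ Loops ω) {f : Pt}
    (hf : surr ω L f) : f ∈ T.faceSet := by
  obtain ⟨γ, h1, _, h3, _⟩ := exists_cycle' hω hL
  refine inside_faceSet (γ := γ) ?_ ((h3 f).1 hf)
  rw [h1]
  intro v hv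
  exact (mem_V.1 (Vale.Agent.P155.L.loop_subset hω hL hv)).1

/-- the same for a sub-vertex set -/
theorem L_in' {T : Temp} (hVT : V ⊆ T.V) (hω : ω ∈ DD V) {L : Set Pt} (hL : L ∈ Loops ω) {f : Pt}
    (hf : surr ω L f) : f ∈ T.faceSet := by
  obtain ⟨γ, h1, _, h3, _⟩ := exists_cycle' hω hL
  refine inside_faceSet (γ := γ) ?_ ((h3 f).1 hf)
  rw [h1]
  intro v hv
  exact (mem_V.1 (hVT (Vale.Agent.P155.L.loop_subset hω hL hv))).1

theorem surr_finite (hω : ω ∈ DD V) {L : Set Pt} (hL : L ∈ Loops ω) :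
    {f | surr ω L f}.Finite := by
  obtain ⟨γ, _, _, h3, _⟩ := exists_cycle' hω hL
  have : {f | surr ω L f} = {f | γ.inside f} := by ext f; exact h3 f
  rw [this]
  exact inside_finite

theorem surr_nonempty (hω : ω ∈ DD V) {L : Set Pt} (hL : L ∈ Loops ω) : ∃ f, surr ω L f := by
  obtain ⟨γ, _, _, h3, _⟩ := exists_cycle' hω hL
  obtain ⟨F, hF⟩ := exists_inside (γ := γ)
  exact ⟨F, (h3 F).2 hF⟩

theorem surr_corner (hω : ω ∈ DD V) {L : Set Pt} (hL : L ∈ Loops ω) {v F : Pt} (hv : v ∉ L)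
    (hF : corner v F) : surr ω L F ↔ surr ω L v := by
  obtain ⟨γ, h1, _, h3, _⟩ := exists_cycle' hω hL
  rw [h3, h3]
  exact inside_corner (by rwa [h1]) hF

theorem surr_adj (hω : ω ∈ DD V) {L : Set Pt} (hL : L ∈ Loops ω) {u v : Pt} (h : Adj u v)
    (hu : u ∉ L) (hv : v ∉ L) : surr ω L u ↔ surr ω L v := by
  obtain ⟨γ, h1, _, h3, _⟩ := exists_cycle' hω hL
  rw [h3, h3]
  exact inside_adj (by rwa [h1]) (by rwa [h1]) h

theorem strict_finite (hω : ω ∈ DD V) {L : Set Pt} (hL : L ∈ Loops ω) :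
    {v | v ∉ L ∧ surr ω L v}.Finite :=
  (surr_finite hω hL).subset fun _ h => h.2

/-- points strictly inside a loop are vertices -/
theorem strict_mem {T : Temp} (hVT : V ⊆ T.V) (hω : ω ∈ DD V) {L : Set Pt} (hL : L ∈ Loops ω)
    {v : Pt} (hv : v ∉ L) (h : surr ω L v) : v ∈ T.V := by
  obtain ⟨γ, h1, _, h3, _⟩ := exists_cycle' hω hL
  refine strict_inside_mem (γ := γ) ?_ (by rwa [h1]) ((h3 v).1 h)
  rw [h1]
  intro u hu
  exact (mem_V.1 (hVT (Vale.Agent.P155.L.loop_subset hω hL hu))).1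

end Vale.Agent.P155.A1
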