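import Vale.Agent.P155.A.Cross

/-!
# P155, block A1: the Jordan curve theorem for simple lattice cycles
-/

namespace Vale.Agent.P155

open Relation

namespace LatCycle

/-- A step between adjacent faces whose common edge is not an edge of the cycle. -/
inductive FStep (γ : LatCycle) : Pt → Pt → Prop
  | right (x y : ℤ) (h : ¬ γ.vedge (x + 1) y) : FStep γ (x, y) (x + 1, y)
  | left (x y : ℤ) (h : ¬ γ.vedge x y) : FStep γ (x, y) (x - 1, y)
  | up (x y : ℤ) (h : ¬ γ.hedge x (y + 1)) : FStep γ (x, y) (x, y + 1)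
  | down (x y : ℤ) (h : ¬ γ.hedge x y) : FStep γ (x, y) (x, y - 1)

/-- Faces joined by a path of faces not crossing the cycle. -/
def Reach (γ : LatCycle) : Pt → Pt → Prop := ReflTransGen γ.FStep

variable {γ : LatCycle}

theorem FStep.symm {f g : Pt} (h : γ.FStep f g) : γ.FStep g f := by
  cases h with
  | right x y h =>
    have := FStep.left (γ := γ) (x + 1) y h
    rwa [add_sub_cancel_right] at this
  | left x y h =>
    have := FStep.right (γ := γ) (x - 1) y (by rwa [sub_add_cancel])
    rwa [sub_add_cancel] at this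
  | up x y h =>
    have := FStep.down (γ := γ) x (y + 1) h
    rwa [add_sub_cancel_right] at this
  | down x y h =>
    have := FStep.up (γ := γ) x (y - 1) (by rwa [sub_add_cancel])
    rwa [sub_add_cancel] at this

theorem FStep.adj {f g : Pt} (h : γ.FStep f g) : Adj f g := by
  cases h <;> simp [Adj]

theorem FStep.inside_iff {f g : Pt} (h : γ.FStep f g) : γ.inside f ↔ γ.inside g := by
  cases h with
  | right x y h =>
    have := inside_iff_v (γ := γ) (x + 1) y h
    rw [add_sub_cancel_right] at this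
    exact this.symm
  | left x y h => exact inside_iff_v x y h
  | up x y h =>
    have := inside_iff_h (γ := γ) x (y + 1) h
    rw [add_sub_cancel_right] at this
    exact this.symm
  | down x y h => exact inside_iff_h x y h

theorem Reach.refl (f : Pt) : γ.Reach f f := ReflTransGen.refl

theorem Reach.symm {f g : Pt} (h : γ.Reach f g) : γ.Reach g f := by
  unfold Reach at *
  induction h with
  | refl => exact ReflTransGen.refl
  | tail _ hs ih => exact ReflTransGen.head hs.symm ih

theorem Reach.trans {f g k : Pt} (h : γ.Reach f g) (h' : γ.Reach g k) : γ.Reach f k :=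
  ReflTransGen.trans h h'

theorem Reach.of_step {f g : Pt} (h : γ.FStep f g) : γ.Reach f g := ReflTransGen.single h

theorem Reach.inside_iff {f g : Pt} (h : γ.Reach f g) : γ.inside f ↔ γ.inside g := by
  unfold Reach at h
  induction h with
  | refl => rfl
  | tail _ hs ih => exact ih.trans hs.inside_iff

/-- `F` is one of the four faces at the vertex `v`. -/
def corner (v F : Pt) : Prop := (F.1 = v.1 ∨ F.1 = v.1 - 1) ∧ (F.2 = v.2 ∨ F.2 = v.2 - 1)

/-- `F` is one of the two faces at the edge `{u,v}`. -/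
def side (u v F : Pt) : Prop := corner u F ∧ corner v F

theorem side_comm {u v F : Pt} : side u v F ↔ side v u F := and_comm

theorem corner_cases {v F : Pt} (h : corner v F) :
    F = (v.1, v.2) ∨ F = (v.1 - 1, v.2) ∨ F = (v.1 - 1, v.2 - 1) ∨ F = (v.1, v.2 - 1) := by
  obtain ⟨a, b⟩ := F
  obtain ⟨h1 | h1, h2 | h2⟩ := h <;> simp only at h1 h2 <;> subst h1 <;> subst h2 <;> simp

section around

variable (v : Pt)

theorem stepN (h : ¬ γ.edge v (v.1, v.2 + 1)) : γ.Reach (v.1, v.2) (v.1 - 1, v.2) :=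
  Reach.of_step (FStep.left _ _ h)

theorem stepW (h : ¬ γ.edge v (v.1 - 1, v.2)) : γ.Reach (v.1 - 1, v.2) (v.1 - 1, v.2 - 1) := by
  refine Reach.of_step (FStep.down _ _ ?_)
  intro h'
  rw [hedge_iff, sub_add_cancel] at h'
  exact h (edge_comm.1 h')

theorem stepS (h : ¬ γ.edge v (v.1, v.2 - 1)) : γ.Reach (v.1 - 1, v.2 - 1) (v.1, v.2 - 1) := by
  refine Reach.symm (Reach.of_step (FStep.left _ _ ?_))
  intro h'
  rw [vedge_iff, sub_add_cancel] at h'
  exact h (edge_comm.1 h')

theorem stepE (h : ¬ γ.edge v (v.1 + 1, v.2)) : γ.Reach (v.1, v.2 - 1) (v.1, v.2) :=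
  Reach.symm (Reach.of_step (FStep.down _ _ h))

end around

theorem cyc_aux {a b c d : Pt} {x y z : Prop} (hx : ¬ x → γ.Reach b c) (hy : ¬ y → γ.Reach c d)
    (hz : ¬ z → γ.Reach d a) (h1 : ¬ (x ∧ y)) (h2 : ¬ (x ∧ z)) (h3 : ¬ (y ∧ z)) :
    (γ.Reach c a ∨ γ.Reach c b) ∧ (γ.Reach d a ∨ γ.Reach d b) := by
  by_cases kx : x
  · have ky : ¬ y := fun h => h1 ⟨kx, h⟩
    have kz : ¬ z := fun h => h2 ⟨kx, h⟩
    exact ⟨Or.inl ((hy ky).trans (hz kz)), Or.inl (hz kz)⟩
  · refine ⟨Or.inr (hx kx).symm, ?_⟩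
    by_cases ky : y
    · have kz : ¬ z := fun h => h3 ⟨ky, h⟩
      exact Or.inl (hz kz)
    · exact Or.inr ((hy ky).symm.trans (hx kx).symm)

/-- Walking around a vertex with at most one barrier besides `{v,p}` one reaches a side of
`{v,p}`. -/
theorem corner_aux {v p q : Pt} (hp : Adj v p) (h : ∀ w, γ.edge v w → w = p ∨ w = q) {F : Pt}
    (hF : corner v F) : ∃ F', side v p F' ∧ γ.Reach F F' := by
  have hq : ∀ w w' : Pt, w ≠ p → w' ≠ p → w ≠ w' → ¬ (γ.edge v w ∧ γ.edge v w') := by
    rintro w w' h1 h2 h3 ⟨h4, h5⟩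
    have h6 := (h w h4).resolve_left h1
    have h7 := (h w' h5).resolve_left h2
    exact h3 (h6.trans h7.symm)
  have cNE : corner v (v.1, v.2) := ⟨Or.inl rfl, Or.inl rfl⟩
  have cNW : corner v (v.1 - 1, v.2) := ⟨Or.inr rfl, Or.inl rfl⟩
  have cSW : corner v (v.1 - 1, v.2 - 1) := ⟨Or.inr rfl, Or.inr rfl⟩
  have cSE : corner v (v.1, v.2 - 1) := ⟨Or.inl rfl, Or.inr rfl⟩
  have fin : ∀ a b c d : Pt, corner v a → corner v b → corner p a → corner p b →
      ((γ.Reach c a ∨ γ.Reach c b) ∧ (γ.Reach d a ∨ γ.Reach d b)) →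
      (F = a ∨ F = b ∨ F = c ∨ F = d) → ∃ F', side v p F' ∧ γ.Reach F F' := by
    rintro a b c d va vb pa pb ⟨hc, hd⟩ (rfl | rfl | rfl | rfl)
    · exact ⟨_, ⟨va, pa⟩, Reach.refl _⟩
    · exact ⟨_, ⟨vb, pb⟩, Reach.refl _⟩
    · rcases hc with h | h
      · exact ⟨_, ⟨va, pa⟩, h⟩
      · exact ⟨_, ⟨vb, pb⟩, h⟩
    · rcases hd with h | h
      · exact ⟨_, ⟨va, pa⟩, h⟩
      · exact ⟨_, ⟨vb, pb⟩, h⟩
  have cc := corner_cases hF
  rcases adj_cases hp with rfl | rfl | rfl | rfl
  · -- E : sides SE, NE ; then N : NE-NW, W : NW-SW, S : SW-SE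
    refine fin (v.1, v.2 - 1) (v.1, v.2) (v.1 - 1, v.2) (v.1 - 1, v.2 - 1) cSE cNE ?_ ?_
      (cyc_aux (stepN v) (stepW v) (stepS v) (hq _ _ ?_ ?_ ?_) (hq _ _ ?_ ?_ ?_)
        (hq _ _ ?_ ?_ ?_)) ?_
    · simp [corner]
    · simp [corner]
    any_goals (rw [ne_eq, Prod.mk.injEq]; omega)
    tauto
  · -- W : sides NW, SW; then S, E, N
    refine fin (v.1 - 1, v.2) (v.1 - 1, v.2 - 1) (v.1, v.2 - 1) (v.1, v.2) cNW cSW ?_ ?_
      (cyc_aux (stepS v) (stepE v) (stepN v) (hq _ _ ?_ ?_ ?_) (hq _ _ ?_ ?_ ?_)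
        (hq _ _ ?_ ?_ ?_)) ?_
    · simp [corner]
    · simp [corner]
    any_goals (rw [ne_eq, Prod.mk.injEq]; omega)
    tauto
  · -- N : sides NE, NW; then W, S, E
    refine fin (v.1, v.2) (v.1 - 1, v.2) (v.1 - 1, v.2 - 1) (v.1, v.2 - 1) cNE cNW ?_ ?_
      (cyc_aux (stepW v) (stepS v) (stepE v) (hq _ _ ?_ ?_ ?_) (hq _ _ ?_ ?_ ?_)
        (hq _ _ ?_ ?_ ?_)) ?_
    · simp [corner]
    · simp [corner]
    any_goals (rw [ne_eq, Prod.mk.injEq]; omega)
    tauto
  · -- S : sides SW, SE; then E, N, W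
    refine fin (v.1 - 1, v.2 - 1) (v.1, v.2 - 1) (v.1, v.2) (v.1 - 1, v.2) cSW cSE ?_ ?_
      (cyc_aux (stepE v) (stepN v) (stepW v) (hq _ _ ?_ ?_ ?_) (hq _ _ ?_ ?_ ?_)
        (hq _ _ ?_ ?_ ?_)) ?_
    · simp [corner]
    · simp [corner]
    any_goals (rw [ne_eq, Prod.mk.injEq]; omega)
    tauto

theorem adj_pred (i : ZMod γ.n) : Adj (γ.c i) (γ.c (i - 1)) := by
  have := γ.adj (i - 1)
  rw [sub_add_cancel] at this
  unfold Adj at this ⊢
  rw [abs_sub_comm (γ.c i).1, abs_sub_comm (γ.c i).2]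
  exact this

theorem corner_succ (i : ZMod γ.n) {F : Pt} (hF : corner (γ.c i) F) :
    ∃ F', side (γ.c i) (γ.c (i + 1)) F' ∧ γ.Reach F F' :=
  corner_aux (γ.adj i) (fun _ hw => edge_at.1 hw) hF

theorem corner_pred (i : ZMod γ.n) {F : Pt} (hF : corner (γ.c i) F) :
    ∃ F', side (γ.c i) (γ.c (i - 1)) F' ∧ γ.Reach F F' :=
  corner_aux (adj_pred i) (fun _ hw => (edge_at.1 hw).symm) hF

/-- every face touching the cycle reaches a side of any given edge of the cycle -/
theorem corner_any (i j : ZMod γ.n) {F : Pt} (hF : corner (γ.c i) F) :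
    ∃ F', side (γ.c j) (γ.c (j + 1)) F' ∧ γ.Reach F F' := by
  have key : ∀ (k : ℕ) (i : ZMod γ.n) (F : Pt), corner (γ.c i) F →
      ∃ F', side (γ.c (i + k)) (γ.c (i + k + 1)) F' ∧ γ.Reach F F' := by
    intro k
    induction k with
    | zero => intro i F hF; simpa using corner_succ i hF
    | succ k ih =>
      intro i F hF
      obtain ⟨F1, h1, h2⟩ := corner_succ i hF
      obtain ⟨F2, h3, h4⟩ := ih (i + 1) F1 h1.2
      refine ⟨F2, ?_, h2.trans h4⟩
      have e : i + 1 + (k : ZMod γ.n) = i + ((k + 1 : ℕ) : ZMod γ.n) := by push_cast; ring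
      rwa [e] at h3
  have := key (j - i).val i F hF
  rwa [ZMod.natCast_zmod_val, add_sub_cancel] at this

/-- adjacent faces: either a step, or separated by an edge of the cycle -/
theorem step_or_edge {f g : Pt} (h : Adj f g) :
    γ.FStep f g ∨ ∃ u v, γ.edge u v ∧ side u v f ∧ side u v g := by
  obtain ⟨x, y⟩ := f
  rcases adj_cases h with rfl | rfl | rfl | rfl
  · by_cases hv : γ.vedge (x + 1) y
    · right
      exact ⟨_, _, (vedge_iff γ _ _).1 hv, by simp [side, corner], by simp [side, corner]⟩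
    · exact Or.inl (FStep.right x y hv)
  · by_cases hv : γ.vedge x y
    · right
      exact ⟨_, _, (vedge_iff γ _ _).1 hv, by simp [side, corner], by simp [side, corner]⟩
    · exact Or.inl (FStep.left x y hv)
  · by_cases hv : γ.hedge x (y + 1)
    · right
      exact ⟨_, _, (hedge_iff γ _ _).1 hv, by simp [side, corner], by simp [side, corner]⟩
    · exact Or.inl (FStep.up x y hv)
  · by_cases hv : γ.hedge x y
    · right
      exact ⟨_, _, (hedge_iff γ _ _).1 hv, by simp [side, corner], by simp [side, corner]⟩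
    · exact Or.inl (FStep.down x y hv)

/-- adjacent faces of different types are separated by an edge of the cycle -/
theorem common_edge {f g : Pt} (h : Adj f g) (h1 : γ.inside f) (h2 : ¬ γ.inside g) :
    ∃ u v, γ.edge u v ∧ side u v f ∧ side u v g := by
  rcases step_or_edge (γ := γ) h with h' | h'
  · exact absurd (h'.inside_iff.1 h1) h2
  · exact h'

/-- every face reaches a face touching the cycle -/
theorem exists_touch (f : Pt) : ∃ i g, corner (γ.c i) g ∧ γ.Reach f g := by
  have key : ∀ (k : ℕ) (f : Pt), (|f.1 - (γ.c 0).1| + |f.2 - (γ.c 0).2|).toNat = k →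
      ∃ i g, corner (γ.c i) g ∧ γ.Reach f g := by
    intro k
    induction k using Nat.strong_induction_on with
    | _ k ih =>
      intro f hf
      by_cases h0 : f = γ.c 0
      · refine ⟨0, f, ?_, Reach.refl _⟩
        rw [h0]; exact ⟨Or.inl rfl, Or.inl rfl⟩
      · -- a neighbour closer to `c 0`
        obtain ⟨g, hg, hd⟩ : ∃ g, Adj f g ∧ |g.1 - (γ.c 0).1| + |g.2 - (γ.c 0).2| <
            |f.1 - (γ.c 0).1| + |f.2 - (γ.c 0).2| := by
          generalize γ.c 0 = p at h0
          by_cases h1 : f.1 = p.1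
          · have h2 : f.2 ≠ p.2 := fun h2 => h0 (Prod.ext h1 h2)
            rcases lt_or_gt_of_ne h2 with h3 | h3
            · refine ⟨(f.1, f.2 + 1), by simp [Adj], ?_⟩
              simp only [add_lt_add_iff_left]
              rw [abs_of_nonpos (by omega), abs_of_neg (by omega)]; omega
            · refine ⟨(f.1, f.2 - 1), by simp [Adj], ?_⟩
              simp only [add_lt_add_iff_left]
              rw [abs_of_nonneg (by omega), abs_of_pos (by omega)]; omega
          · rcases lt_or_gt_of_ne h1 with h3 | h3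
            · refine ⟨(f.1 + 1, f.2), by simp [Adj], ?_⟩
              simp only [add_lt_add_iff_right]
              rw [abs_of_nonpos (by omega), abs_of_neg (by omega)]; omega
            · refine ⟨(f.1 - 1, f.2), by simp [Adj], ?_⟩
              simp only [add_lt_add_iff_right]
              rw [abs_of_nonneg (by omega), abs_of_pos (by omega)]; omega
        rcases step_or_edge (γ := γ) hg with h' | ⟨u, v, he, hs, _⟩
        · obtain ⟨i, g', h3, h4⟩ := ih _ (by
            rw [← hf]
            have h5 : 0 ≤ |g.1 - (γ.c 0).1| + |g.2 - (γ.c 0).2| := by positivity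
            omega) g rfl
          exact ⟨i, g', h3, (Reach.of_step h').trans h4⟩
        · obtain ⟨i, hi⟩ := he.mem_left
          exact ⟨i, f, by rw [hi]; exact hs.1, Reach.refl _⟩
  exact key _ f rfl

/-- the two sides of an edge of the cycle have different types -/
theorem side_type {i : ZMod γ.n} {F G : Pt} (hF : side (γ.c i) (γ.c (i + 1)) F)
    (hG : side (γ.c i) (γ.c (i + 1)) G) (hne : F ≠ G) : γ.inside F ↔ ¬ γ.inside G := by
  have he : γ.edge (γ.c i) (γ.c (i + 1)) := edge_at.2 (Or.inl rfl)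
  have hadj := γ.adj i
  generalize γ.c i = u at *
  generalize γ.c (i + 1) = w at *
  obtain ⟨a, b⟩ := u
  obtain ⟨F1, F2⟩ := F
  obtain ⟨G1, G2⟩ := G
  have flip : ∀ {p q : Prop}, (p ↔ ¬ q) → (q ↔ ¬ p) := by intro p q; tauto
  rcases adj_cases hadj with rfl | rfl | rfl | rfl
  · have k : γ.inside (a, b) ↔ ¬ γ.inside (a, b - 1) := inside_iff_h' a b he
    simp only [side, corner] at hF hG
    have e1 : F1 = a := by omega
    have e2 : G1 = a := by omega
    subst e1; subst e2
    have hne' : F2 ≠ G2 := fun h => hne (by rw [h])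
    rcases hF.1.2 with rfl | rfl <;> rcases hG.1.2 with rfl | rfl
    · exact absurd rfl hne'
    · exact k
    · exact flip k
    · exact absurd rfl hne'
  · have k : γ.inside (a - 1, b) ↔ ¬ γ.inside (a - 1, b - 1) := by
      refine inside_iff_h' (a - 1) b ?_
      rw [hedge_iff, sub_add_cancel]
      exact edge_comm.1 he
    simp only [side, corner] at hF hG
    have e1 : F1 = a - 1 := by omega
    have e2 : G1 = a - 1 := by omega
    subst e1; subst e2
    have hne' : F2 ≠ G2 := fun h => hne (by rw [h])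
    rcases hF.1.2 with rfl | rfl <;> rcases hG.1.2 with rfl | rfl
    · exact absurd rfl hne'
    · exact k
    · exact flip k
    · exact absurd rfl hne'
  · have k : γ.inside (a, b) ↔ ¬ γ.inside (a - 1, b) := inside_iff_v' a b he
    simp only [side, corner] at hF hG
    have e1 : F2 = b := by omega
    have e2 : G2 = b := by omega
    subst e1; subst e2
    have hne' : F1 ≠ G1 := fun h => hne (by rw [h])
    rcases hF.1.1 with rfl | rfl <;> rcases hG.1.1 with rfl | rfl
    · exact absurd rfl hne'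
    · exact k
    · exact flip k
    · exact absurd rfl hne'
  · have k : γ.inside (a, b - 1) ↔ ¬ γ.inside (a - 1, b - 1) := by
      refine inside_iff_v' a (b - 1) ?_
      rw [vedge_iff, sub_add_cancel]
      exact edge_comm.1 he
    simp only [side, corner] at hF hG
    have e1 : F2 = b - 1 := by omega
    have e2 : G2 = b - 1 := by omega
    subst e1; subst e2
    have hne' : F1 ≠ G1 := fun h => hne (by rw [h])
    rcases hF.1.1 with rfl | rfl <;> rcases hG.1.1 with rfl | rfl
    · exact absurd rfl hne'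
    · exact k
    · exact flip k
    · exact absurd rfl hne'

/-- **Jordan curve theorem**: two faces of the same type are joined by a path of faces not
crossing the cycle. -/
theorem reach_of_inside_iff {f g : Pt} (h : γ.inside f ↔ γ.inside g) : γ.Reach f g := by
  obtain ⟨i, f1, h1, h2⟩ := exists_touch (γ := γ) f
  obtain ⟨j, g1, h3, h4⟩ := exists_touch (γ := γ) g
  obtain ⟨f2, h5, h6⟩ := corner_any i 0 h1
  obtain ⟨g2, h7, h8⟩ := corner_any j 0 h3
  have hf := h2.trans h6
  have hg := h4.trans h8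
  by_cases he : f2 = g2
  · subst he; exact hf.trans hg.symm
  · exfalso
    have := side_type h5 h7 he
    rw [← hf.inside_iff, ← hg.inside_iff, h] at this
    tauto

theorem reach_iff {f g : Pt} : γ.Reach f g ↔ (γ.inside f ↔ γ.inside g) :=
  ⟨Reach.inside_iff, reach_of_inside_iff⟩

end LatCycle

end Vale.Agent.P155
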