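import Vale.Agent.P155.A.JCT

/-!
# P155, block A1: position of a face, two disjoint cycles
-/

namespace Vale.Agent.P155

open Relation

namespace LatCycle

variable {γ γ' : LatCycle}

/-! ### Position of the interior -/

theorem exists_vedge_left {f : Pt} (h : γ.inside f) : ∃ j, j ≤ f.1 ∧ γ.vedge j f.2 := by
  by_contra hcon
  have e : {j : ℤ | j ≤ f.1 ∧ γ.vedge j f.2} = ∅ := by
    ext j
    simp only [Set.mem_ofPred_eq, Set.mem_empty_iff_false, iff_false]
    exact fun hj => hcon ⟨j, hj⟩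
  unfold inside at h
  rw [e] at h
  simp at h

/-- a straight walk from an inside face to an outside face crosses an edge of the cycle -/
theorem exists_vedge_right {f : Pt} (h : γ.inside f) : ∃ j, f.1 < j ∧ γ.vedge j f.2 := by
  by_contra hcon
  push Not at hcon
  obtain ⟨M, hM0, hM⟩ := exists_bound (γ := γ)
  have key : ∀ k : ℕ, γ.inside (f.1 + k, f.2) := by
    intro k
    induction k with
    | zero => simpa using h
    | succ k ih =>
      have := (inside_iff_v (γ := γ) (f.1 + (k + 1 : ℕ)) f.2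
        (hcon _ (by push_cast; omega))).2
      apply this
      have e : f.1 + ((k + 1 : ℕ) : ℤ) - 1 = f.1 + k := by push_cast; ring
      rwa [e]
  refine not_inside_right hM (x := f.1 + ((M - f.1).toNat + 1 : ℕ)) (y := f.2) ?_ (key _)
  push_cast
  have := Int.self_le_toNat (M - f.1)
  omega

theorem exists_hedge_down {f : Pt} (h : γ.inside f) : ∃ y, y ≤ f.2 ∧ γ.hedge f.1 y := by
  by_contra hcon
  push Not at hcon
  obtain ⟨M, hM0, hM⟩ := exists_bound (γ := γ)
  have key : ∀ k : ℕ, γ.inside (f.1, f.2 - k) := by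
    intro k
    induction k with
    | zero => simpa using h
    | succ k ih =>
      have := (inside_iff_h (γ := γ) f.1 (f.2 - k) (hcon _ (by omega))).1 ih
      have e : f.2 - ((k + 1 : ℕ) : ℤ) = f.2 - k - 1 := by push_cast; ring
      rwa [e]
  refine not_inside_vert hM (x := f.1) (y := f.2 - ((M + f.2).toNat + 1 : ℕ)) ?_ (key _)
  push_cast
  have := Int.self_le_toNat (M + f.2)
  right; omega

theorem exists_hedge_up {f : Pt} (h : γ.inside f) : ∃ y, f.2 < y ∧ γ.hedge f.1 y := by
  by_contra hcon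
  push Not at hcon
  obtain ⟨M, hM0, hM⟩ := exists_bound (γ := γ)
  have key : ∀ k : ℕ, γ.inside (f.1, f.2 + k) := by
    intro k
    induction k with
    | zero => simpa using h
    | succ k ih =>
      have := (inside_iff_h (γ := γ) f.1 (f.2 + (k + 1 : ℕ))
        (hcon _ (by push_cast; omega))).2
      apply this
      have e : f.2 + ((k + 1 : ℕ) : ℤ) - 1 = f.2 + k := by push_cast; ring
      rwa [e]
  refine not_inside_vert hM (x := f.1) (y := f.2 + ((M - f.2).toNat + 1 : ℕ)) ?_ (key _)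
  push_cast
  have := Int.self_le_toNat (M - f.2)
  left; omega

theorem inside_box {f : Pt} (h : γ.inside f) :
    (∃ j, j ≤ f.1 ∧ γ.vedge j f.2) ∧ (∃ j, f.1 < j ∧ γ.vedge j f.2) ∧
      (∃ y, y ≤ f.2 ∧ γ.hedge f.1 y) ∧ (∃ y, f.2 < y ∧ γ.hedge f.1 y) :=
  ⟨exists_vedge_left h, exists_vedge_right h, exists_hedge_down h, exists_hedge_up h⟩

/-- an edge has two sides -/
theorem two_sides {u v : Pt} (h : Adj u v) : ∃ F G, side u v F ∧ side u v G ∧ F ≠ G := by
  rcases adj_cases h with rfl | rfl | rfl | rfl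
  · exact ⟨(u.1, u.2), (u.1, u.2 - 1), by simp [side, corner], by simp [side, corner],
      by rw [ne_eq, Prod.mk.injEq]; omega⟩
  · exact ⟨(u.1 - 1, u.2), (u.1 - 1, u.2 - 1), by simp [side, corner], by simp [side, corner],
      by rw [ne_eq, Prod.mk.injEq]; omega⟩
  · exact ⟨(u.1, u.2), (u.1 - 1, u.2), by simp [side, corner], by simp [side, corner],
      by rw [ne_eq, Prod.mk.injEq]; omega⟩
  · exact ⟨(u.1, u.2 - 1), (u.1 - 1, u.2 - 1), by simp [side, corner], by simp [side, corner],
      by rw [ne_eq, Prod.mk.injEq]; omega⟩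

/-- each edge of the cycle has an inside face -/
theorem edge_inside (i : ZMod γ.n) :
    ∃ F, side (γ.c i) (γ.c (i + 1)) F ∧ γ.inside F := by
  obtain ⟨F, G, hF, hG, hne⟩ := two_sides (γ.adj i)
  by_cases h : γ.inside F
  · exact ⟨F, hF, h⟩
  · refine ⟨G, hG, ?_⟩
    have := side_type hF hG hne
    tauto

/-- each edge of the cycle has an outside face -/
theorem edge_outside (i : ZMod γ.n) :
    ∃ F, side (γ.c i) (γ.c (i + 1)) F ∧ ¬ γ.inside F := by
  obtain ⟨F, G, hF, hG, hne⟩ := two_sides (γ.adj i)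
  by_cases h : γ.inside F
  · refine ⟨G, hG, ?_⟩
    have := side_type hF hG hne
    tauto
  · exact ⟨F, hF, h⟩

theorem exists_inside : ∃ F, γ.inside F := by
  obtain ⟨F, _, h⟩ := edge_inside (γ := γ) 0
  exact ⟨F, h⟩

theorem exists_outside_far (S : Set Pt) (hS : S.Finite) : ∃ F, F ∉ S ∧ ¬ γ.inside F := by
  obtain ⟨F, hF⟩ := (hS.union (inside_finite (γ := γ))).exists_notMem
  exact ⟨F, fun h => hF (Or.inl h), fun h => hF (Or.inr h)⟩

/-! ### The type of a vertex off the cycle -/

/-- the four faces at a vertex off the cycle have the type of the vertex -/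
theorem inside_corner {v F : Pt} (hv : v ∉ γ.verts) (hF : corner v F) :
    γ.inside F ↔ γ.inside v := by
  obtain ⟨h1, h2, h3⟩ := corner_iff hv
  rcases corner_cases hF with rfl | rfl | rfl | rfl
  · rfl
  · exact h1
  · exact h3
  · exact h2

theorem exists_side_of_adj {u v : Pt} (h : Adj u v) : ∃ F, side u v F := by
  rcases adj_cases h with rfl | rfl | rfl | rfl
  · exact ⟨(u.1, u.2), by simp [side, corner]⟩
  · exact ⟨(u.1 - 1, u.2), by simp [side, corner]⟩
  · exact ⟨(u.1, u.2), by simp [side, corner]⟩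
  · exact ⟨(u.1, u.2 - 1), by simp [side, corner]⟩

/-- adjacent vertices off the cycle have the same type -/
theorem inside_adj {u v : Pt} (hu : u ∉ γ.verts) (hv : v ∉ γ.verts) (h : Adj u v) :
    γ.inside u ↔ γ.inside v := by
  obtain ⟨F, h1, h2⟩ := exists_side_of_adj h
  exact (inside_corner hu h1).symm.trans (inside_corner hv h2)

/-- a connected set of vertices off the cycle has constant type -/
theorem inside_path {S : Set Pt} (hS : Disjoint γ.verts S) {u v : Pt}
    (h : ReflTransGen (fun a b => Adj a b ∧ b ∈ S) u v) (hu : u ∈ S) :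
    γ.inside u ↔ γ.inside v := by
  have hoff : ∀ {a}, a ∈ S → a ∉ γ.verts := fun ha h' => Set.disjoint_left.1 hS h' ha
  have key : (γ.inside u ↔ γ.inside v) ∧ v ∈ S := by
    induction h with
    | refl => exact ⟨Iff.rfl, hu⟩
    | tail _ hs ih => exact ⟨ih.1.trans (inside_adj (hoff ih.2) (hoff hs.2) hs.1), hs.2⟩
  exact key.1

/-- all vertices of a disjoint cycle lie on the same side -/
theorem side_const (hd : Disjoint γ.verts γ'.verts) {u v : Pt} (hu : u ∈ γ'.verts)
    (hv : v ∈ γ'.verts) : γ.inside u ↔ γ.inside v := by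
  obtain ⟨i, rfl⟩ := hu
  obtain ⟨j, rfl⟩ := hv
  have hoff : ∀ i, γ'.c i ∉ γ.verts := fun i h' => Set.disjoint_left.1 hd h' ⟨i, rfl⟩
  have key : ∀ k : ℕ, γ.inside (γ'.c i) ↔ γ.inside (γ'.c (i + k)) := by
    intro k
    induction k with
    | zero => simp
    | succ k ih =>
      rw [ih]
      have := inside_adj (hoff (i + k)) (hoff (i + k + 1)) (γ'.adj (i + k))
      rw [this]
      push_cast
      rw [add_assoc]
  have := key (j - i).val
  rwa [ZMod.natCast_zmod_val, add_sub_cancel] at this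

/-- An edge crossed by a path: if `P` holds at the start and fails at the end of a path, there
is a step where it changes. -/
theorem exists_change {r : Pt → Pt → Prop} {P : Pt → Prop} {f g : Pt} (h : ReflTransGen r f g)
    (hf : P f) (hg : ¬ P g) : ∃ a b, ReflTransGen r f a ∧ r a b ∧ P a ∧ ¬ P b := by
  induction h with
  | refl => exact absurd hf hg
  | @tail b c hb hs ih =>
    by_cases hP : P b
    · exact ⟨b, c, hb, hs, hP, hg⟩
    · exact ih hP

/-- If `γ'` lies inside `γ`, then so does its interior. -/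
theorem nested (hd : Disjoint γ.verts γ'.verts) {v : Pt} (hv : v ∈ γ'.verts)
    (h : γ.inside v) {f : Pt} (hf : γ'.inside f) : γ.inside f := by
  by_contra hcon
  obtain ⟨g, hg1, hg2⟩ := exists_outside_far (γ := γ) {F | γ'.inside F} inside_finite
  have hr : γ.Reach f g := reach_of_inside_iff (by tauto)
  obtain ⟨a, b, h1, h2, h3, h4⟩ := exists_change (P := γ'.inside) hr hf hg1
  obtain ⟨u, w, he, hs, _⟩ := common_edge h2.adj h3 h4
  have hu := he.mem_left
  have h5 : γ.inside u := (side_const hd hu hv).2 h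
  have h6 : γ.inside a := (inside_corner (Set.disjoint_right.1 hd hu) hs.1).2 h5
  exact hcon ((Reach.inside_iff h1).2 h6)

/-- Two disjoint cycles are not inside each other. -/
theorem not_mutual (hd : Disjoint γ.verts γ'.verts) {v : Pt} (hv : v ∈ γ'.verts)
    (h : γ.inside v) {u : Pt} (hu : u ∈ γ.verts) : ¬ γ'.inside u := by
  intro h'
  have h1 : ∀ f, γ'.inside f → γ.inside f := fun f hf => nested hd hv h hf
  have h2 : ∀ f, γ.inside f → γ'.inside f := fun f hf => nested hd.symm hu h' hf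
  obtain ⟨i, rfl⟩ := hv
  obtain ⟨F, hF, hF'⟩ := edge_outside (γ := γ') i
  have h3 : γ.inside F := (inside_corner (Set.disjoint_right.1 hd ⟨i, rfl⟩) hF.1).2 h
  exact hF' (h2 F h3)

/-- Two disjoint cycles, none inside the other, have disjoint interiors. -/
theorem disjoint_inside (hd : Disjoint γ.verts γ'.verts) {v : Pt} (hv : v ∈ γ'.verts)
    (h : ¬ γ.inside v) {u : Pt} (hu : u ∈ γ.verts) (h' : ¬ γ'.inside u) {f : Pt}
    (hf : γ.inside f) : ¬ γ'.inside f := by
  intro hf'
  obtain ⟨i, rfl⟩ := hu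
  obtain ⟨F, hF, hF1⟩ := edge_inside (γ := γ) i
  have h1 : ¬ γ'.inside F := by
    rw [inside_corner (Set.disjoint_left.1 hd ⟨i, rfl⟩) hF.1]
    exact h'
  have hr : γ.Reach f F := reach_of_inside_iff (by tauto)
  obtain ⟨a, b, h2, h3, h4, h5⟩ := exists_change (P := γ'.inside) hr hf' h1
  obtain ⟨p, q, he, hs, _⟩ := common_edge h3.adj h4 h5
  have hp := he.mem_left
  have h6 : ¬ γ.inside p := by rwa [side_const hd hp hv]
  have h7 : γ.inside a := (Reach.inside_iff h2).1 hf
  exact h6 ((inside_corner (Set.disjoint_right.1 hd hp) hs.1).1 h7)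

/-- If `γ'` lies inside `γ`, all faces touching `γ` are outside `γ'`, and all faces touching
`γ'` are inside `γ`. -/
theorem corner_nested (hd : Disjoint γ.verts γ'.verts) {v : Pt} (hv : v ∈ γ'.verts)
    (h : γ.inside v) {u F : Pt} (hu : u ∈ γ.verts) (hF : corner u F) : ¬ γ'.inside F := by
  rw [inside_corner (Set.disjoint_left.1 hd hu) hF]
  exact not_mutual hd hv h hu

theorem corner_nested' (hd : Disjoint γ.verts γ'.verts) {v : Pt} (hv : v ∈ γ'.verts)
    (h : γ.inside v) {u F : Pt} (hu : u ∈ γ'.verts) (hF : corner u F) : γ.inside F := by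
  rw [inside_corner (Set.disjoint_right.1 hd hu) hF]
  exact (side_const hd hu hv).2 h

/-- Trichotomy for two disjoint cycles. -/
theorem trichotomy (hd : Disjoint γ.verts γ'.verts) :
    ((∀ v ∈ γ'.verts, γ.inside v) ∧ (∀ v ∈ γ.verts, ¬ γ'.inside v) ∧
        (∀ f, γ'.inside f → γ.inside f)) ∨
      ((∀ v ∈ γ.verts, γ'.inside v) ∧ (∀ v ∈ γ'.verts, ¬ γ.inside v) ∧
        (∀ f, γ.inside f → γ'.inside f)) ∨
      ((∀ v ∈ γ'.verts, ¬ γ.inside v) ∧ (∀ v ∈ γ.verts, ¬ γ'.inside v) ∧
        (∀ f, γ.inside f → ¬ γ'.inside f)) := by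
  have m : γ.c 0 ∈ γ.verts := ⟨0, rfl⟩
  have m' : γ'.c 0 ∈ γ'.verts := ⟨0, rfl⟩
  by_cases h : γ.inside (γ'.c 0)
  · left
    exact ⟨fun v hv => (side_const hd hv m').2 h, fun v hv => not_mutual hd m' h hv,
      fun f hf => nested hd m' h hf⟩
  · by_cases h' : γ'.inside (γ.c 0)
    · right; left
      exact ⟨fun v hv => (side_const hd.symm hv m).2 h', fun v hv => not_mutual hd.symm m h' hv,
        fun f hf => nested hd.symm m h' hf⟩
    · right; right
      exact ⟨fun v hv h1 => h ((side_const hd hv m').1 h1),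
        fun v hv h1 => h' ((side_const hd.symm hv m).1 h1),
        fun f hf => disjoint_inside hd m' h m h' hf⟩

/-- Two disjoint cycles around a common face are nested. -/
theorem chain (hd : Disjoint γ.verts γ'.verts) {f : Pt} (h : γ.inside f) (h' : γ'.inside f) :
    ((∀ v ∈ γ'.verts, γ.inside v) ∧ (∀ v ∈ γ.verts, ¬ γ'.inside v) ∧
        (∀ f, γ'.inside f → γ.inside f)) ∨
      ((∀ v ∈ γ.verts, γ'.inside v) ∧ (∀ v ∈ γ'.verts, ¬ γ.inside v) ∧
        (∀ f, γ.inside f → γ'.inside f)) := by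
  rcases trichotomy hd with h1 | h1 | h1
  · exact Or.inl h1
  · exact Or.inr h1
  · exact absurd h' (h1.2.2 f h)

/-- the interiors of disjoint cycles are different -/
theorem inside_ne (hd : Disjoint γ.verts γ'.verts) : ∃ f, ¬ (γ.inside f ↔ γ'.inside f) := by
  by_contra hcon
  push Not at hcon
  obtain ⟨F, hF, hF'⟩ := edge_inside (γ := γ) 0
  obtain ⟨G, hG, hG'⟩ := edge_outside (γ := γ) 0
  have hoff : γ.c 0 ∉ γ'.verts := Set.disjoint_left.1 hd ⟨0, rfl⟩
  have h1 := (hcon F).1 hF'
  have h2 : ¬ γ'.inside G := fun h => hG' ((hcon G).2 h)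
  rw [inside_corner hoff hF.1] at h1
  rw [inside_corner hoff hG.1] at h2
  exact h2 h1

end LatCycle

end Vale.Agent.P155
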