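import Vale.Agent.P155.Defs2

/-!
# P155, block A3b: the Kasteleyn operator on closed unions of coarse cells

`Kop f w = ∑_b K(w,b) f(b)`, `KTop g b = ∑_w K(w,b) g(w)`; `KTop (Kop f)` is the step-two Laplacian.
For a set `C` of fine vertices which is a union of closed coarse cells (`IsCl C`) everything
localises to `C`: the restricted `Kᵀ K` is the Neumann Laplacian on (even,even) vertices and the
Dirichlet Laplacian on (odd,odd) vertices, and the energy identity holds.
-/

namespace Vale.Agent.P155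

open Finset

/-! ### signs -/

theorem sg_sq (y : ℤ) : sg y * sg y = 1 := by
  unfold sg; split_ifs <;> norm_num

theorem sg_add_one (y : ℤ) : sg (y + 1) = - sg y := by
  unfold sg
  by_cases h : Even y
  · rw [if_pos h, if_neg (by rw [Int.even_add_one]; exact not_not.2 h)]
  · rw [if_neg h, if_pos (by rw [Int.even_add_one]; exact h)]; norm_num

theorem sg_sub_one (y : ℤ) : sg (y - 1) = - sg y := by
  have := sg_add_one (y - 1)
  rw [sub_add_cancel] at this
  rw [this, neg_neg]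

theorem sg_even {y : ℤ} (h : Even y) : sg y = 1 := by unfold sg; rw [if_pos h]

theorem sg_odd {y : ℤ} (h : Odd y) : sg y = -1 := by
  unfold sg; rw [if_neg (Int.not_even_iff_odd.2 h)]

/-! ### the operators -/

/-- the Kasteleyn operator: `(K f)(w)` -/
noncomputable def Kop (f : Pt → ℝ) (w : Pt) : ℝ :=
  f (w.1 + 1, w.2) - f (w.1 - 1, w.2) + sg w.2 * (f (w.1, w.2 + 1) - f (w.1, w.2 - 1))

/-- the transposed Kasteleyn operator: `(Kᵀ g)(b)` -/
noncomputable def KTop (g : Pt → ℝ) (b : Pt) : ℝ :=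
  g (b.1 - 1, b.2) - g (b.1 + 1, b.2) + sg b.2 * (g (b.1, b.2 + 1) - g (b.1, b.2 - 1))

theorem K_right (w : Pt) : K w (w.1 + 1, w.2) = 1 := by simp [K]

theorem K_left (w : Pt) : K w (w.1 - 1, w.2) = -1 := by
  unfold K
  rw [if_neg, if_pos rfl]
  intro h; rw [Prod.mk.injEq] at h; omega

theorem K_up (w : Pt) : K w (w.1, w.2 + 1) = sg w.2 := by
  unfold K
  rw [if_neg, if_neg, if_pos rfl]
  · intro h; rw [Prod.mk.injEq] at h; omega
  · intro h; rw [Prod.mk.injEq] at h; omega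

theorem K_down (w : Pt) : K w (w.1, w.2 - 1) = - sg w.2 := by
  unfold K
  rw [if_neg, if_neg, if_neg, if_pos rfl]
  · intro h; rw [Prod.mk.injEq] at h; omega
  · intro h; rw [Prod.mk.injEq] at h; omega
  · intro h; rw [Prod.mk.injEq] at h; omega

theorem K_right' (b : Pt) : K (b.1 + 1, b.2) b = -1 := by
  have := K_left (b.1 + 1, b.2)
  simpa using this

theorem K_left' (b : Pt) : K (b.1 - 1, b.2) b = 1 := by
  have := K_right (b.1 - 1, b.2)
  simpa using this

theorem K_up' (b : Pt) : K (b.1, b.2 + 1) b = sg b.2 := by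
  have := K_down (b.1, b.2 + 1)
  simp only [add_sub_cancel_right] at this
  rw [sg_add_one, neg_neg] at this
  exact this

theorem K_down' (b : Pt) : K (b.1, b.2 - 1) b = - sg b.2 := by
  have := K_up (b.1, b.2 - 1)
  simp only [sub_add_cancel] at this
  rw [sg_sub_one] at this
  exact this

theorem K_eq_zero {w b : Pt} (h : ¬ Adj w b) : K w b = 0 := by
  have h' : b ∉ nbrs w := fun hb => h (mem_nbrs.1 hb)
  simp only [nbrs, mem_insert, mem_singleton, not_or] at h'
  unfold K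
  rw [if_neg h'.1, if_neg h'.2.1, if_neg h'.2.2.1, if_neg h'.2.2.2]

theorem adj_comm {u v : Pt} : Adj u v ↔ Adj v u := by
  unfold Adj
  rw [abs_sub_comm u.1, abs_sub_comm u.2]

theorem mem_nbrs_comm {u v : Pt} : u ∈ nbrs v ↔ v ∈ nbrs u := by
  rw [mem_nbrs, mem_nbrs, adj_comm]

/-- sums over the four neighbours -/
theorem sum_nbrs {E : Type*} [AddCommMonoid E] (v : Pt) (F : Pt → E) :
    ∑ u ∈ nbrs v, F u
      = F (v.1 + 1, v.2) + (F (v.1 - 1, v.2) + (F (v.1, v.2 + 1) + F (v.1, v.2 - 1))) := by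
  unfold nbrs
  rw [sum_insert, sum_insert, sum_insert, sum_singleton]
  · simp only [mem_singleton, Prod.mk.injEq, not_and]
    intro _; omega
  · simp only [mem_insert, mem_singleton, Prod.mk.injEq, not_or, not_and]
    refine ⟨fun h => ?_, fun h => ?_⟩ <;> omega
  · simp only [mem_insert, mem_singleton, Prod.mk.injEq, not_or, not_and]
    refine ⟨fun h => ?_, fun h => ?_, fun h => ?_⟩ <;> omega

theorem sum_nbrs_K (f : Pt → ℝ) (w : Pt) : ∑ b ∈ nbrs w, K w b * f b = Kop f w := by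
  rw [sum_nbrs, K_right, K_left, K_up, K_down]
  unfold Kop
  ring

theorem sum_nbrs_KT (g : Pt → ℝ) (b : Pt) : ∑ w ∈ nbrs b, K w b * g w = KTop g b := by
  rw [sum_nbrs, K_right', K_left', K_up', K_down']
  unfold KTop
  ring

/-- the operator as a sum over a set carrying `f` -/
theorem sum_K_eq (V : Finset Pt) {f : Pt → ℝ} {w : Pt} (hf : ∀ b ∈ nbrs w, b ∉ V → f b = 0) :
    ∑ b ∈ V, K w b * f b = Kop f w := by
  classical
  rw [← sum_nbrs_K]
  have h1 : ∑ b ∈ V, K w b * f b = ∑ b ∈ V ∩ nbrs w, K w b * f b := by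
    symm
    refine sum_subset inter_subset_left fun b hb hb' => ?_
    rw [K_eq_zero fun h => hb' (mem_inter.2 ⟨hb, mem_nbrs.2 h⟩), zero_mul]
  rw [h1]
  refine sum_subset inter_subset_right fun b hb hb' => ?_
  rw [hf b hb fun h => hb' (mem_inter.2 ⟨h, hb⟩), mul_zero]

theorem sum_KT_eq (V : Finset Pt) {g : Pt → ℝ} {b : Pt} (hg : ∀ w ∈ nbrs b, w ∉ V → g w = 0) :
    ∑ w ∈ V, K w b * g w = KTop g b := by
  classical
  rw [← sum_nbrs_KT]
  have h1 : ∑ w ∈ V, K w b * g w = ∑ w ∈ V ∩ nbrs b, K w b * g w := by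
    symm
    refine sum_subset inter_subset_left fun w hw hw' => ?_
    rw [K_eq_zero fun h => hw' (mem_inter.2 ⟨hw, mem_nbrs.2 (adj_comm.1 h)⟩), zero_mul]
  rw [h1]
  refine sum_subset inter_subset_right fun w hw hw' => ?_
  rw [hg w hw fun h => hw' (mem_inter.2 ⟨h, hw⟩), mul_zero]

/-- `Kᵀ K` is the step-two Laplacian -/
theorem KTop_Kop (F : Pt → ℝ) (b : Pt) :
    KTop (Kop F) b = 4 * F b - F (b.1 + 2, b.2) - F (b.1 - 2, b.2) - F (b.1, b.2 + 2)
      - F (b.1, b.2 - 2) := by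
  unfold KTop Kop
  simp only
  rw [sg_add_one, sg_sub_one]
  have e := sg_sq b.2
  have a1 : b.1 - 1 + 1 = b.1 := by ring
  have a2 : b.1 + 1 - 1 = b.1 := by ring
  have a3 : b.1 - 1 - 1 = b.1 - 2 := by ring
  have a4 : b.1 + 1 + 1 = b.1 + 2 := by ring
  have a5 : b.2 - 1 + 1 = b.2 := by ring
  have a6 : b.2 + 1 - 1 = b.2 := by ring
  have a7 : b.2 - 1 - 1 = b.2 - 2 := by ring
  have a8 : b.2 + 1 + 1 = b.2 + 2 := by ring
  rw [a1, a2, a3, a4, a5, a6, a7, a8]
  have e2 : sg b.2 ^ 2 = 1 := by rw [sq]; exact e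
  ring_nf
  rw [e2]
  ring

/-- `K Kᵀ` is the step-two Laplacian too -/
theorem Kop_KTop (G : Pt → ℝ) (w : Pt) :
    Kop (KTop G) w = 4 * G w - G (w.1 + 2, w.2) - G (w.1 - 2, w.2) - G (w.1, w.2 + 2)
      - G (w.1, w.2 - 2) := by
  unfold KTop Kop
  simp only
  rw [sg_add_one, sg_sub_one]
  have e := sg_sq w.2
  have a1 : w.1 - 1 + 1 = w.1 := by ring
  have a2 : w.1 + 1 - 1 = w.1 := by ring
  have a3 : w.1 - 1 - 1 = w.1 - 2 := by ring
  have a4 : w.1 + 1 + 1 = w.1 + 2 := by ring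
  have a5 : w.2 - 1 + 1 = w.2 := by ring
  have a6 : w.2 + 1 - 1 = w.2 := by ring
  have a7 : w.2 - 1 - 1 = w.2 - 2 := by ring
  have a8 : w.2 + 1 + 1 = w.2 + 2 := by ring
  rw [a1, a2, a3, a4, a5, a6, a7, a8]
  have e2 : sg w.2 ^ 2 = 1 := by rw [sq]; exact e
  ring_nf
  rw [e2]
  ring

/-! ### types of vertices -/

/-- (even, even) -/
def B0 (v : Pt) : Prop := Even v.1 ∧ Even v.2

/-- (odd, odd) -/
def B1 (v : Pt) : Prop := Odd v.1 ∧ Odd v.2

instance : DecidablePred B0 := fun _ => by unfold B0; infer_instance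
instance : DecidablePred B1 := fun _ => by unfold B1; infer_instance

theorem black_iff {v : Pt} : Black v ↔ B0 v ∨ B1 v := by
  unfold Black B0 B1
  rw [Int.even_add]
  constructor
  · intro h
    by_cases h1 : Even v.1
    · exact Or.inl ⟨h1, h.1 h1⟩
    · exact Or.inr ⟨Int.not_even_iff_odd.1 h1, Int.not_even_iff_odd.1 fun h2 => h1 (h.2 h2)⟩
  · rintro (⟨h1, h2⟩ | ⟨h1, h2⟩)
    · exact ⟨fun _ => h2, fun _ => h1⟩
    · exact ⟨fun h => absurd h (Int.not_even_iff_odd.2 h1),
        fun h => absurd h (Int.not_even_iff_odd.2 h2)⟩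

theorem not_B0_of_B1 {v : Pt} (h : B1 v) : ¬ B0 v := fun h' =>
  (Int.not_even_iff_odd.2 h.1) h'.1

theorem not_B1_of_B0 {v : Pt} (h : B0 v) : ¬ B1 v := fun h' => not_B0_of_B1 h' h

theorem B0.black {v : Pt} (h : B0 v) : Black v := black_iff.2 (Or.inl h)

theorem B1.black {v : Pt} (h : B1 v) : Black v := black_iff.2 (Or.inr h)

theorem white_iff_not_black {v : Pt} : White v ↔ ¬ Black v := by
  unfold White Black
  exact Int.not_even_iff_odd.symm

theorem Adj.white {u v : Pt} (h : Adj u v) (hu : Black u) : White v := by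
  have h' := mem_nbrs.2 h
  simp only [nbrs, mem_insert, mem_singleton] at h'
  unfold White
  unfold Black at hu
  obtain ⟨k, hk⟩ := hu
  rcases h' with h' | h' | h' | h' <;> rw [h']
  · exact ⟨k, by simp only; omega⟩
  · exact ⟨k - 1, by simp only; omega⟩
  · exact ⟨k, by simp only; omega⟩
  · exact ⟨k - 1, by simp only; omega⟩

theorem Adj.black {u v : Pt} (h : Adj u v) (hu : White u) : Black v := by
  have h' := mem_nbrs.2 h
  simp only [nbrs, mem_insert, mem_singleton] at h'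
  unfold Black
  unfold White at hu
  obtain ⟨k, hk⟩ := hu
  rcases h' with h' | h' | h' | h' <;> rw [h']
  · exact ⟨k + 1, by simp only; omega⟩
  · exact ⟨k, by simp only; omega⟩
  · exact ⟨k + 1, by simp only; omega⟩
  · exact ⟨k, by simp only; omega⟩

end Vale.Agent.P155
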