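import Vale.Agent.P155.A.PickEx

/-!
# P155, block A2: Pick's theorem for lattice cycles
-/

namespace Vale.Agent.P155

namespace LatCycle

open Finset Pick

variable {γ : LatCycle}

/-! ### The dimension count -/

/-- the coboundary from inner vertices to inner edges -/
def d0 (γ : LatCycle) : supp γ.vin →ₗ[ZMod 2] supp γ.evs × supp γ.ehs where
  toFun s := (⟨(D0 s.1).1, (D0_mem s.2).1⟩, ⟨(D0 s.1).2, (D0_mem s.2).2⟩)
  map_add' a b := by
    refine Prod.ext (Subtype.ext ?_) (Subtype.ext ?_)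
    · change (D0 (a.1 + b.1)).1 = (D0 a.1).1 + (D0 b.1).1
      rw [map_add, Prod.fst_add]
    · change (D0 (a.1 + b.1)).2 = (D0 a.1).2 + (D0 b.1).2
      rw [map_add, Prod.snd_add]
  map_smul' c a := by
    refine Prod.ext (Subtype.ext ?_) (Subtype.ext ?_)
    · change (D0 (c • a.1)).1 = c • (D0 a.1).1
      rw [map_smul, Prod.smul_fst]
    · change (D0 (c • a.1)).2 = c • (D0 a.1).2
      rw [map_smul, Prod.smul_snd]

/-- the coboundary from inner edges to inner faces -/
def d1 (γ : LatCycle) : (supp γ.evs × supp γ.ehs) →ₗ[ZMod 2] supp γ.fin where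
  toFun a := ⟨D1 (a.1.1, a.2.1), D1_mem a.1.2 a.2.2⟩
  map_add' a b := by
    refine Subtype.ext ?_
    change D1 (a.1.1 + b.1.1, a.2.1 + b.2.1) = D1 (a.1.1, a.2.1) + D1 (b.1.1, b.2.1)
    rw [← map_add, Prod.mk_add_mk]
  map_smul' c a := by
    refine Subtype.ext ?_
    change D1 (c • a.1.1, c • a.2.1) = c • D1 (a.1.1, a.2.1)
    rw [← map_smul, Prod.smul_mk]

/-- the sum over all inner faces -/
noncomputable def sig (γ : LatCycle) : supp γ.fin →ₗ[ZMod 2] ZMod 2 where
  toFun g := ∑ᶠ p, g.1 p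
  map_add' a b := by
    change ∑ᶠ p, (a.1 p + b.1 p) = _
    exact finsum_add_distrib (finite_supp_of fin_finite a.2) (finite_supp_of fin_finite b.2)
  map_smul' c a := by
    change ∑ᶠ p, c * a.1 p = c * ∑ᶠ p, a.1 p
    exact (mul_finsum (fun p => a.1 p) c).symm

theorem euler : γ.evs.ncard + γ.ehs.ncard + 1 = γ.vin.ncard + γ.fin.ncard := by
  have := finite_supp _ (evs_finite (γ := γ))
  have := finite_supp _ (ehs_finite (γ := γ))
  have := finite_supp _ (fin_finite (γ := γ))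
  have key := dim_count γ.d0 γ.d1 γ.sig ?_ ?_ ?_ ?_
  · rw [Module.finrank_prod, finrank_supp _ evs_finite, finrank_supp _ ehs_finite,
      finrank_supp _ vin_finite, finrank_supp _ fin_finite] at key
    exact key
  · rw [injective_iff_map_eq_zero]
    intro s hs
    refine Subtype.ext (D0_inj s.2 ?_)
    have h1 : (D0 s.1).1 = 0 := congrArg (fun t => t.1.1) hs
    have h2 : (D0 s.1).2 = 0 := congrArg (fun t => t.2.1) hs
    exact Prod.ext h1 h2
  · ext a
    rw [LinearMap.mem_range, LinearMap.mem_ker]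
    constructor
    · rintro ⟨s, rfl⟩
      refine Subtype.ext ?_
      exact D1_D0 s.1
    · intro h
      obtain ⟨s, hs, h1⟩ := exists_pot a.1.2 a.2.2 (congrArg Subtype.val h)
      refine ⟨⟨s, hs⟩, Prod.ext (Subtype.ext ?_) (Subtype.ext ?_)⟩
      · exact congrArg Prod.fst h1
      · exact congrArg Prod.snd h1
  · ext g
    rw [LinearMap.mem_range, LinearMap.mem_ker]
    constructor
    · rintro ⟨a, rfl⟩
      exact total_D1 (finite_supp_of evs_finite a.1.2) (finite_supp_of ehs_finite a.2.2)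
    · intro h
      obtain ⟨a, ⟨h1, h2⟩, h3⟩ := mem_img g.2 h
      exact ⟨(⟨a.1, h1⟩, ⟨a.2, h2⟩), Subtype.ext h3⟩
  · obtain ⟨f0, hf0⟩ := exists_inside (γ := γ)
    refine ⟨⟨pulse f0, pulse_mem hf0⟩, ?_⟩
    change ∑ᶠ p, pulse f0 p ≠ 0
    rw [finsum_eq_single _ f0 (by intro x hx; simp [pulse, hx])]
    simp [pulse]

/-! ### Counting edges -/

/-- vertical edges of the cycle -/
def vset (γ : LatCycle) : Set Pt := {p | γ.vedge p.1 p.2}

/-- horizontal edges of the cycle -/
def hset (γ : LatCycle) : Set Pt := {p | γ.hedge p.1 p.2}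

theorem vset_finite : γ.vset.Finite :=
  verts_finite.subset fun p h => ((vedge_iff γ p.1 p.2).1 h).mem_left

theorem hset_finite : γ.hset.Finite :=
  verts_finite.subset fun p h => ((hedge_iff γ p.1 p.2).1 h).mem_left

theorem ncard_shift (S : Set Pt) (e : Pt) : {p : Pt | p + e ∈ S}.ncard = S.ncard := by
  have : {p : Pt | p + e ∈ S} = (Equiv.addRight e).symm '' S := by
    rw [Equiv.image_symm_eq_preimage]; rfl
  rw [this, Set.ncard_image_of_injective _ (Equiv.injective _)]

theorem split_v : 2 * γ.fin.ncard = 2 * γ.evs.ncard + γ.vset.ncard := by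
  have hf := inside_finite (γ := γ)
  have e1 : γ.fin = γ.evs ∪ {p | γ.vedge p.1 p.2 ∧ γ.inside p} := by
    ext p
    simp only [fin, evs, Set.mem_ofPred_eq, Set.mem_union]
    tauto
  have e2 : {p : Pt | p + ((-1, 0) : Pt) ∈ γ.fin} =
      γ.evs ∪ {p | γ.vedge p.1 p.2 ∧ γ.inside (p + ((-1, 0) : Pt))} := by
    ext p
    simp only [fin, evs, Set.mem_ofPred_eq, Set.mem_union]
    have h1 : p + ((-1, 0) : Pt) = (p.1 - 1, p.2) := Prod.ext rfl (add_zero _)
    rw [h1]
    have := inside_iff_v (γ := γ) p.1 p.2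
    tauto
  have e3 : γ.vset = {p | γ.vedge p.1 p.2 ∧ γ.inside p} ∪
      {p | γ.vedge p.1 p.2 ∧ γ.inside (p + ((-1, 0) : Pt))} := by
    ext p
    simp only [vset, Set.mem_ofPred_eq, Set.mem_union]
    have h1 : p + ((-1, 0) : Pt) = (p.1 - 1, p.2) := Prod.ext rfl (add_zero _)
    rw [h1]
    have := inside_iff_v' (γ := γ) p.1 p.2
    tauto
  have n1 := Set.ncard_union_eq (s := γ.evs) (t := {p | γ.vedge p.1 p.2 ∧ γ.inside p})
    (by rw [Set.disjoint_left]; intro p h h'; exact h.1 h'.1) evs_finite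
    (vset_finite.subset fun p h => h.1)
  have n2 := Set.ncard_union_eq (s := γ.evs)
    (t := {p | γ.vedge p.1 p.2 ∧ γ.inside (p + ((-1, 0) : Pt))})
    (by rw [Set.disjoint_left]; intro p h h'; exact h.1 h'.1) evs_finite
    (vset_finite.subset fun p h => h.1)
  have n3 := Set.ncard_union_eq (s := {p | γ.vedge p.1 p.2 ∧ γ.inside p})
    (t := {p | γ.vedge p.1 p.2 ∧ γ.inside (p + ((-1, 0) : Pt))})
    (by
      rw [Set.disjoint_left]
      intro p h h'
      have h1 : p + ((-1, 0) : Pt) = (p.1 - 1, p.2) := Prod.ext rfl (add_zero _)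
      have h2 := h'.2
      rw [h1] at h2
      exact (inside_iff_v' p.1 p.2 h.1).1 h.2 h2)
    (vset_finite.subset fun p h => h.1) (vset_finite.subset fun p h => h.1)
  rw [← e1] at n1
  rw [← e2, ncard_shift] at n2
  rw [← e3] at n3
  omega

theorem split_h : 2 * γ.fin.ncard = 2 * γ.ehs.ncard + γ.hset.ncard := by
  have e1 : γ.fin = γ.ehs ∪ {p | γ.hedge p.1 p.2 ∧ γ.inside p} := by
    ext p
    simp only [fin, ehs, Set.mem_ofPred_eq, Set.mem_union]
    tauto
  have e2 : {p : Pt | p + ((0, -1) : Pt) ∈ γ.fin} =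
      γ.ehs ∪ {p | γ.hedge p.1 p.2 ∧ γ.inside (p + ((0, -1) : Pt))} := by
    ext p
    simp only [fin, ehs, Set.mem_ofPred_eq, Set.mem_union]
    have h1 : p + ((0, -1) : Pt) = (p.1, p.2 - 1) := Prod.ext (add_zero _) rfl
    rw [h1]
    have := inside_iff_h (γ := γ) p.1 p.2
    tauto
  have e3 : γ.hset = {p | γ.hedge p.1 p.2 ∧ γ.inside p} ∪
      {p | γ.hedge p.1 p.2 ∧ γ.inside (p + ((0, -1) : Pt))} := by
    ext p
    simp only [hset, Set.mem_ofPred_eq, Set.mem_union]
    have h1 : p + ((0, -1) : Pt) = (p.1, p.2 - 1) := Prod.ext (add_zero _) rfl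
    rw [h1]
    have := inside_iff_h' (γ := γ) p.1 p.2
    tauto
  have n1 := Set.ncard_union_eq (s := γ.ehs) (t := {p | γ.hedge p.1 p.2 ∧ γ.inside p})
    (by rw [Set.disjoint_left]; intro p h h'; exact h.1 h'.1) ehs_finite
    (hset_finite.subset fun p h => h.1)
  have n2 := Set.ncard_union_eq (s := γ.ehs)
    (t := {p | γ.hedge p.1 p.2 ∧ γ.inside (p + ((0, -1) : Pt))})
    (by rw [Set.disjoint_left]; intro p h h'; exact h.1 h'.1) ehs_finite
    (hset_finite.subset fun p h => h.1)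
  have n3 := Set.ncard_union_eq (s := {p | γ.hedge p.1 p.2 ∧ γ.inside p})
    (t := {p | γ.hedge p.1 p.2 ∧ γ.inside (p + ((0, -1) : Pt))})
    (by
      rw [Set.disjoint_left]
      intro p h h'
      have h1 : p + ((0, -1) : Pt) = (p.1, p.2 - 1) := Prod.ext (add_zero _) rfl
      have h2 := h'.2
      rw [h1] at h2
      exact (inside_iff_h' p.1 p.2 h.1).1 h.2 h2)
    (hset_finite.subset fun p h => h.1) (hset_finite.subset fun p h => h.1)
  rw [← e1] at n1
  rw [← e2, ncard_shift] at n2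
  rw [← e3] at n3
  omega

/-- steps in a given direction -/
def dir (γ : LatCycle) (e : Pt) : Set (ZMod γ.n) := {i | γ.c (i + 1) = γ.c i + e}

theorem dir_cases (i : ZMod γ.n) :
    i ∈ γ.dir (1, 0) ∨ i ∈ γ.dir (-1, 0) ∨ i ∈ γ.dir (0, 1) ∨ i ∈ γ.dir (0, -1) := by
  unfold dir
  simp only [Set.mem_ofPred_eq]
  rcases adj_cases (γ.adj i) with h | h | h | h <;> rw [h]
  · left; exact Prod.ext rfl (add_zero _).symm
  · right; left; exact Prod.ext rfl (add_zero _).symm
  · right; right; left; exact Prod.ext (add_zero _).symm rfl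
  · right; right; right; exact Prod.ext (add_zero _).symm rfl

theorem dir_disj {e e' : Pt} (h : e ≠ e') : Disjoint (γ.dir e) (γ.dir e') := by
  rw [Set.disjoint_left]
  intro i h1 h2
  unfold dir at h1 h2
  simp only [Set.mem_ofPred_eq] at h1 h2
  exact h (add_left_cancel (h1.symm.trans h2))

theorem ncard_axis (e : Pt) :
    {p : Pt | γ.edge p (p + e)}.ncard = (γ.dir e).ncard + (γ.dir (-e)).ncard := by
  have h1 : {p : Pt | γ.edge p (p + e)} = γ.c '' (γ.dir e) ∪ (fun i => γ.c (i + 1)) '' γ.dir (-e) := by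
    ext p
    simp only [Set.mem_ofPred_eq, Set.mem_union, Set.mem_image, dir]
    constructor
    · rintro ⟨i, h | h⟩
      · left; exact ⟨i, by rw [h.2, h.1], h.1⟩
      · right; exact ⟨i, by rw [h.2, h.1, add_neg_cancel_right], h.2⟩
    · rintro (⟨i, h, rfl⟩ | ⟨i, h, rfl⟩)
      · exact ⟨i, Or.inl ⟨rfl, h⟩⟩
      · exact ⟨i, Or.inr ⟨by rw [h, neg_add_cancel_right], rfl⟩⟩
  rw [h1, Set.ncard_union_eq, Set.ncard_image_of_injective _ γ.inj,
    Set.ncard_image_of_injective _ (fun i j hij => add_right_cancel (γ.inj hij))]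
  · rw [Set.disjoint_left]
    rintro _ ⟨i, hi, rfl⟩ ⟨j, hj, hji⟩
    unfold dir at hi hj
    simp only [Set.mem_ofPred_eq] at hi hj hji
    have h2 : j + 1 = i := γ.inj hji
    have h3 := succ_ne_pred (γ := γ) i
    apply h3
    rw [hi, ← h2, add_sub_cancel_right, hj, neg_add_cancel_right]

theorem count_edges : γ.vset.ncard + γ.hset.ncard = γ.n := by
  have e1 : γ.vset = {p : Pt | γ.edge p (p + ((0, 1) : Pt))} := by
    ext p
    have h1 : p + ((0, 1) : Pt) = (p.1, p.2 + 1) := Prod.ext (add_zero _) rfl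
    simp only [vset, Set.mem_ofPred_eq, h1]
    rfl
  have e2 : γ.hset = {p : Pt | γ.edge p (p + ((1, 0) : Pt))} := by
    ext p
    have h1 : p + ((1, 0) : Pt) = (p.1 + 1, p.2) := Prod.ext rfl (add_zero _)
    simp only [hset, Set.mem_ofPred_eq, h1]
    rfl
  rw [e1, e2, ncard_axis, ncard_axis]
  have h0 : (Set.univ : Set (ZMod γ.n)) =
      ((γ.dir (0, 1) ∪ γ.dir (-(0, 1))) ∪ (γ.dir (1, 0) ∪ γ.dir (-(1, 0)))) := by
    ext i
    simp only [Set.mem_univ, true_iff, Set.mem_union]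
    have := dir_cases i
    have e3 : (-((0, 1) : Pt)) = (0, -1) := rfl
    have e4 : (-((1, 0) : Pt)) = (-1, 0) := rfl
    rw [e3, e4]
    tauto
  have h1 : (Set.univ : Set (ZMod γ.n)).ncard = γ.n := by
    rw [Set.ncard_univ, Nat.card_zmod]
  refine Eq.trans ?_ h1
  rw [h0, Set.ncard_union_eq _ (Set.toFinite _) (Set.toFinite _),
    Set.ncard_union_eq (dir_disj (by decide)) (Set.toFinite _) (Set.toFinite _),
    Set.ncard_union_eq (dir_disj (by decide)) (Set.toFinite _) (Set.toFinite _)]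
  rw [Set.disjoint_union_left, Set.disjoint_union_right, Set.disjoint_union_right]
  exact ⟨⟨dir_disj (by decide), dir_disj (by decide)⟩, dir_disj (by decide), dir_disj (by decide)⟩

/-! ### Pick's theorem -/

/-- **Pick's theorem** for a simple lattice cycle. -/
theorem pick (γ : LatCycle) : 2 * Set.ncard {f | γ.inside f} + 2 =
    2 * Set.ncard {v | v ∉ γ.verts ∧ γ.inside v} + γ.n := by
  have h1 := euler (γ := γ)
  have h2 := split_v (γ := γ)
  have h3 := split_h (γ := γ)
  have h4 := count_edges (γ := γ)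
  change 2 * γ.fin.ncard + 2 = 2 * γ.vin.ncard + γ.n
  omega

theorem even_n (γ : LatCycle) : Even γ.n := by
  have := pick γ
  rw [Nat.even_iff]
  omega

theorem pick' (γ : LatCycle) : Set.ncard {f | γ.inside f} + 1 =
    Set.ncard {v | v ∉ γ.verts ∧ γ.inside v} + γ.n / 2 := by
  have := pick γ
  omega

end LatCycle

end Vale.Agent.P155
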