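import Vale.Agent.P155.A.JCT2

/-!
# P155, block A2: functions with values in `ZMod 2` supported in a set
-/

namespace Vale.Agent.P155

namespace Pick

open Finset

/-- functions on `ℤ²` with values in `ZMod 2` -/
abbrev Fn := Pt → ZMod 2

/-- functions supported in a set -/
def supp (S : Set Pt) : Submodule (ZMod 2) Fn where
  carrier := {s | ∀ v, v ∉ S → s v = 0}
  add_mem' := by
    intro a b ha hb v hv
    rw [Pi.add_apply, ha v hv, hb v hv, add_zero]
  zero_mem' := by intro v _; rfl
  smul_mem' := by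
    intro c a ha v hv
    rw [Pi.smul_apply, ha v hv, smul_zero]

theorem mem_supp {S : Set Pt} {s : Fn} : s ∈ supp S ↔ ∀ v, v ∉ S → s v = 0 := Iff.rfl

open Classical in
/-- restriction to the support -/
noncomputable def suppEquiv (S : Set Pt) : supp S ≃ₗ[ZMod 2] (S → ZMod 2) where
  toFun s := fun v => s.1 v.1
  map_add' _ _ := rfl
  map_smul' _ _ := rfl
  invFun g := ⟨fun v => if h : v ∈ S then g ⟨v, h⟩ else 0, by
    intro v hv
    simp [hv]⟩
  left_inv := by
    intro s
    ext v
    by_cases h : v ∈ S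
    · simp [h]
    · simp [h, s.2 v h]
  right_inv := by
    intro g
    ext v
    simp

theorem finrank_supp (S : Set Pt) (hS : S.Finite) :
    Module.finrank (ZMod 2) (supp S) = S.ncard := by
  have : Fintype S := hS.fintype
  rw [LinearEquiv.finrank_eq (suppEquiv S), Module.finrank_fintype_fun_eq_card,
    ← Nat.card_eq_fintype_card]
  rfl

theorem finite_supp (S : Set Pt) (hS : S.Finite) : Module.Finite (ZMod 2) (supp S) := by
  have : Fintype S := hS.fintype
  exact Module.Finite.equiv (suppEquiv S).symm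

/-- coboundary of a vertex function -/
def D0 : Fn →ₗ[ZMod 2] Fn × Fn where
  toFun s := (fun p => s p + s (p.1, p.2 + 1), fun p => s p + s (p.1 + 1, p.2))
  map_add' a b := by
    ext p <;> simp only [Pi.add_apply, Prod.mk_add_mk] <;> ring
  map_smul' c a := by
    ext p <;> simp [mul_add]

/-- coboundary of an edge function -/
def D1 : Fn × Fn →ₗ[ZMod 2] Fn where
  toFun a := fun p => a.1 p + a.1 (p.1 + 1, p.2) + a.2 p + a.2 (p.1, p.2 + 1)
  map_add' a b := by
    ext p
    simp only [Pi.add_apply, Prod.fst_add, Prod.snd_add]; ring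
  map_smul' c a := by
    ext p
    simp only [Pi.smul_apply, Prod.smul_fst, Prod.smul_snd, smul_eq_mul, RingHom.id_apply]; ring

theorem D0_fst (s : Fn) (p : Pt) : (D0 s).1 p = s p + s (p.1, p.2 + 1) := rfl
theorem D0_snd (s : Fn) (p : Pt) : (D0 s).2 p = s p + s (p.1 + 1, p.2) := rfl
theorem D1_apply (a : Fn × Fn) (p : Pt) :
    D1 a p = a.1 p + a.1 (p.1 + 1, p.2) + a.2 p + a.2 (p.1, p.2 + 1) := rfl

theorem D1_D0 (s : Fn) : D1 (D0 s) = 0 := by
  ext p
  rw [D1_apply, D0_fst, D0_fst, D0_snd, D0_snd]
  simp only [Pi.zero_apply]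
  generalize s p = a
  generalize s (p.1, p.2 + 1) = b
  generalize s (p.1 + 1, p.2) = c
  generalize s (p.1 + 1, p.2 + 1) = d
  revert a b c d
  decide

/-- the abstract dimension count -/
theorem dim_count {A B C : Type*} [AddCommGroup A] [Module (ZMod 2) A] [AddCommGroup B]
    [Module (ZMod 2) B] [AddCommGroup C] [Module (ZMod 2) C] [Module.Finite (ZMod 2) B]
    [Module.Finite (ZMod 2) C]
    (d0 : A →ₗ[ZMod 2] B) (d1 : B →ₗ[ZMod 2] C) (σ : C →ₗ[ZMod 2] ZMod 2)
    (h0 : Function.Injective d0) (h1 : LinearMap.range d0 = LinearMap.ker d1)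
    (h2 : LinearMap.range d1 = LinearMap.ker σ) (h3 : ∃ c, σ c ≠ 0) :
    Module.finrank (ZMod 2) B + 1 = Module.finrank (ZMod 2) A + Module.finrank (ZMod 2) C := by
  have e1 := LinearMap.finrank_range_add_finrank_ker d1
  have e2 := LinearMap.finrank_range_add_finrank_ker σ
  have e3 : Module.finrank (ZMod 2) (LinearMap.range d0) = Module.finrank (ZMod 2) A :=
    LinearMap.finrank_range_of_inj h0
  have e4 : Module.finrank (ZMod 2) (LinearMap.range σ) = 1 := by
    have : LinearMap.range σ = ⊤ := by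
      obtain ⟨c, hc⟩ := h3
      rw [LinearMap.range_eq_top]
      intro z
      refine ⟨z • c, ?_⟩
      rw [map_smul, smul_eq_mul]
      generalize σ c = t at hc
      revert z t
      decide
    rw [this, finrank_top, Module.finrank_self]
  rw [← h1, e3, h2] at e1
  rw [e4] at e2
  omega

end Pick

end Vale.Agent.P155
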