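import Vale.Agent.P155.A.PickAlg

/-!
# P155, block A2: exactness of the relative cochain complex of a lattice cycle
-/

namespace Vale.Agent.P155

namespace LatCycle

open Finset Pick

variable {γ : LatCycle}

/-- vertices strictly inside -/
def vin (γ : LatCycle) : Set Pt := {v | v ∉ γ.verts ∧ γ.inside v}

/-- faces inside -/
def fin (γ : LatCycle) : Set Pt := {f | γ.inside f}

/-- vertical edges strictly inside -/
def evs (γ : LatCycle) : Set Pt := {e | ¬ γ.vedge e.1 e.2 ∧ γ.inside e}

/-- horizontal edges strictly inside -/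
def ehs (γ : LatCycle) : Set Pt := {e | ¬ γ.hedge e.1 e.2 ∧ γ.inside e}

theorem fin_finite : γ.fin.Finite := inside_finite
theorem vin_finite : γ.vin.Finite := inside_finite.subset fun _ h => h.2
theorem evs_finite : γ.evs.Finite := inside_finite.subset fun _ h => h.2
theorem ehs_finite : γ.ehs.Finite := inside_finite.subset fun _ h => h.2

theorem vin_up {x y : ℤ} (h : (x, y + 1) ∈ γ.vin) : γ.inside (x, y) := by
  have := (corner_iff h.1).2.1
  simp only [add_sub_cancel_right] at this
  exact this.2 h.2

theorem vin_right {x y : ℤ} (h : (x + 1, y) ∈ γ.vin) : γ.inside (x, y) := by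
  have := (corner_iff h.1).1
  simp only [add_sub_cancel_right] at this
  exact this.2 h.2

theorem D0_mem {s : Fn} (hs : s ∈ supp γ.vin) :
    (D0 s).1 ∈ supp γ.evs ∧ (D0 s).2 ∈ supp γ.ehs := by
  constructor
  · rintro ⟨x, y⟩ h
    rw [D0_fst]
    have key : (x, y) ∉ γ.vin ∧ (x, y + 1) ∉ γ.vin := by
      by_cases hv : γ.vedge x y
      · exact ⟨fun h => h.1 ((vedge_iff γ x y).1 hv).mem_left,
          fun h => h.1 ((vedge_iff γ x y).1 hv).mem_right⟩
      · have h0 : ¬ γ.inside (x, y) := fun hi => h ⟨hv, hi⟩
        exact ⟨fun h => h0 h.2, fun h => h0 (vin_up h)⟩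
    rw [hs _ key.1, hs _ key.2, add_zero]
  · rintro ⟨x, y⟩ h
    rw [D0_snd]
    have key : (x, y) ∉ γ.vin ∧ (x + 1, y) ∉ γ.vin := by
      by_cases hv : γ.hedge x y
      · exact ⟨fun h => h.1 ((hedge_iff γ x y).1 hv).mem_left,
          fun h => h.1 ((hedge_iff γ x y).1 hv).mem_right⟩
      · have h0 : ¬ γ.inside (x, y) := fun hi => h ⟨hv, hi⟩
        exact ⟨fun h => h0 h.2, fun h => h0 (vin_right h)⟩
    rw [hs _ key.1, hs _ key.2, add_zero]

theorem D1_mem {a b : Fn} (ha : a ∈ supp γ.evs) (hb : b ∈ supp γ.ehs) :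
    D1 (a, b) ∈ supp γ.fin := by
  rintro ⟨x, y⟩ h
  have h : ¬ γ.inside (x, y) := h
  rw [D1_apply]
  have h1 : a (x, y) = 0 := ha _ fun h' => h h'.2
  have h2 : b (x, y) = 0 := hb _ fun h' => h h'.2
  have h3 : a (x + 1, y) = 0 := by
    refine ha _ fun h' => h ?_
    have := inside_iff_v (γ := γ) (x + 1) y h'.1
    rw [add_sub_cancel_right] at this
    exact this.1 h'.2
  have h4 : b (x, y + 1) = 0 := by
    refine hb _ fun h' => h ?_
    have := inside_iff_h (γ := γ) x (y + 1) h'.1
    rw [add_sub_cancel_right] at this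
    exact this.1 h'.2
  simp [h1, h2, h3, h4]

/-! ### Injectivity at the vertices -/

theorem D0_inj {s : Fn} (hs : s ∈ supp γ.vin) (h : D0 s = 0) : s = 0 := by
  obtain ⟨M, hM0, hM⟩ := exists_bound (γ := γ)
  have key : ∀ k : ℕ, ∀ x y : ℤ, x = -M - 1 + k → s (x, y) = 0 := by
    intro k
    induction k with
    | zero =>
      intro x y hx
      refine hs _ fun h' => not_inside_left hM (by simp at hx; omega) h'.2
    | succ k ih =>
      intro x y hx
      have ih' := ih (x - 1) y (by push_cast at hx; omega)
      have h1 : (D0 s).2 (x - 1, y) = 0 := by rw [h]; rfl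
      rw [D0_snd] at h1
      simp only [sub_add_cancel] at h1
      rw [ih', zero_add] at h1
      exact h1
  ext ⟨x, y⟩
  rcases le_or_gt (-M - 1) x with h1 | h1
  · exact key (x - (-M - 1)).toNat x y (by rw [Int.toNat_of_nonneg (by omega)]; ring)
  · exact hs _ fun h' => not_inside_left hM (by omega) h'.2

/-! ### Exactness at the edges -/

/-- the potential of a horizontal edge function -/
noncomputable def pot (M : ℤ) (b : Fn) : Fn := fun p => ∑ j ∈ Ico (-M) p.1, b (j, p.2)

theorem pot_left {M : ℤ} {b : Fn} {x y : ℤ} (h : x ≤ -M) : pot M b (x, y) = 0 := by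
  unfold pot
  rw [Finset.Ico_eq_empty (by simpa using h), sum_empty]

theorem pot_succ {M : ℤ} {b : Fn} (hb : ∀ x y, x < -M → b (x, y) = 0) (x y : ℤ) :
    pot M b (x + 1, y) = pot M b (x, y) + b (x, y) := by
  rcases lt_or_ge x (-M) with h | h
  · rw [pot_left (by omega), pot_left (by omega), hb x y h, add_zero]
  · unfold pot
    simp only
    have e : Ico (-M) (x + 1) = insert x (Ico (-M) x) := by
      ext j; simp only [mem_Ico, mem_insert]; omega
    rw [e, sum_insert (by simp), add_comm]

theorem exists_pot {a b : Fn} (ha : a ∈ supp γ.evs) (hb : b ∈ supp γ.ehs) (h : D1 (a, b) = 0) :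
    ∃ s ∈ supp γ.vin, D0 s = (a, b) := by
  obtain ⟨M, hM0, hM⟩ := exists_bound (γ := γ)
  have hb0 : ∀ x y, x < -M → b (x, y) = 0 := fun x y hx =>
    hb _ fun h' => not_inside_left hM hx h'.2
  have ha0 : ∀ x y, x < -M → a (x, y) = 0 := fun x y hx =>
    ha _ fun h' => not_inside_left hM hx h'.2
  have hsucc := pot_succ hb0
  have h1 : ∀ p, (D0 (pot M b)).2 p = b p := by
    rintro ⟨x, y⟩
    rw [D0_snd]
    simp only
    rw [hsucc, ← add_assoc, add_self2, zero_add]
  have h2 : ∀ p, (D0 (pot M b)).1 p = a p := by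
    have key : ∀ k : ℕ, ∀ x y : ℤ, x = -M - 1 + k →
        pot M b (x, y) + pot M b (x, y + 1) = a (x, y) := by
      intro k
      induction k with
      | zero =>
        intro x y hx
        have hx' : x < -M := by simp at hx; omega
        rw [pot_left hx'.le, pot_left hx'.le, ha0 x y hx', add_zero]
      | succ k ih =>
        intro x y hx
        have ih' := ih (x - 1) y (by push_cast at hx; omega)
        have e1 := hsucc (x - 1) y
        have e2 := hsucc (x - 1) (y + 1)
        have e3 : D1 (a, b) (x - 1, y) = 0 := by rw [h]; rfl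
        rw [D1_apply] at e3
        simp only [sub_add_cancel] at e1 e2 e3
        rw [e1, e2]
        generalize pot M b (x - 1, y) = c1 at *
        generalize pot M b (x - 1, y + 1) = c2 at *
        generalize b (x - 1, y) = c3 at *
        generalize b (x - 1, y + 1) = c4 at *
        generalize a (x - 1, y) = c5 at *
        generalize a (x, y) = c6 at *
        clear * - ih' e3
        revert c1 c2 c3 c4 c5 c6
        decide
    rintro ⟨x, y⟩
    rw [D0_fst]
    simp only
    rcases le_or_gt (-M - 1) x with h3 | h3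
    · exact key (x - (-M - 1)).toNat x y (by rw [Int.toNat_of_nonneg (by omega)]; ring)
    · rw [pot_left (by omega), pot_left (by omega), ha0 x y (by omega), add_zero]
  have hD : D0 (pot M b) = (a, b) := Prod.ext (funext h1 |> fun _ => funext h2) (funext h1)
  refine ⟨pot M b, ?_, hD⟩
  -- constancy along the cycle
  have hv : ∀ x y, γ.vedge x y → pot M b (x, y) = pot M b (x, y + 1) := by
    intro x y hxy
    have e := h2 (x, y)
    rw [D0_fst, ha (x, y) fun h' => h'.1 hxy] at e
    simp only at e
    generalize pot M b (x, y) = c1 at *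
    generalize pot M b (x, y + 1) = c2 at *
    clear * - e
    revert c1 c2
    decide
  have hh : ∀ x y, γ.hedge x y → pot M b (x, y) = pot M b (x + 1, y) := by
    intro x y hxy
    rw [hsucc, hb (x, y) fun h' => h'.1 hxy, add_zero]
  have hstep : ∀ i, pot M b (γ.c i) = pot M b (γ.c (i + 1)) := by
    intro i
    have he : γ.edge (γ.c i) (γ.c (i + 1)) := edge_at.2 (Or.inl rfl)
    have hadj := γ.adj i
    generalize γ.c i = u at *
    generalize γ.c (i + 1) = w at *
    obtain ⟨x, y⟩ := u
    rcases adj_cases hadj with rfl | rfl | rfl | rfl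
    · exact hh x y he
    · have := hh (x - 1) y (by rw [hedge_iff, sub_add_cancel]; exact edge_comm.1 he)
      rw [sub_add_cancel] at this
      exact this.symm
    · exact hv x y he
    · have := hv x (y - 1) (by rw [vedge_iff, sub_add_cancel]; exact edge_comm.1 he)
      rw [sub_add_cancel] at this
      exact this.symm
  have hconst : ∀ i j, pot M b (γ.c i) = pot M b (γ.c j) := by
    intro i j
    have key : ∀ k : ℕ, pot M b (γ.c i) = pot M b (γ.c (i + k)) := by
      intro k
      induction k with
      | zero => simp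
      | succ k ih =>
        rw [ih, hstep]
        push_cast
        rw [add_assoc]
    have := key (j - i).val
    rwa [ZMod.natCast_zmod_val, add_sub_cancel] at this
  -- a leftmost vertex
  obtain ⟨i0, hi0⟩ : ∃ i0, ∀ i, (γ.c i0).1 ≤ (γ.c i).1 := Finite.exists_min fun i => (γ.c i).1
  have hzero : pot M b (γ.c i0) = 0 := by
    unfold pot
    refine sum_eq_zero fun j hj => ?_
    rw [mem_Ico] at hj
    refine hb _ fun h' => ?_
    obtain ⟨j', hj', hv'⟩ := exists_vedge_left h'.2
    obtain ⟨i, hi⟩ := ((vedge_iff γ _ _).1 hv').mem_left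
    have h3 := hi0 i
    rw [hi] at h3
    simp only at h3 hj'
    omega
  have hcyc : ∀ v ∈ γ.verts, pot M b v = 0 := by
    rintro _ ⟨i, rfl⟩
    rw [hconst i i0, hzero]
  have key : ∀ k : ℕ, ∀ x y : ℤ, x = -M - 1 + k → (x, y) ∉ γ.vin → pot M b (x, y) = 0 := by
    intro k
    induction k with
    | zero =>
      intro x y hx _
      exact pot_left (by simp at hx; omega)
    | succ k ih =>
      intro x y hx hv'
      by_cases hc : (x, y) ∈ γ.verts
      · exact hcyc _ hc
      · have h3 : ¬ γ.inside (x, y) := fun h' => hv' ⟨hc, h'⟩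
        have h4 : ¬ γ.inside (x - 1, y) := fun h' => h3 ((corner_iff hc).1.1 h')
        have h5 := hsucc (x - 1) y
        rw [sub_add_cancel, ih (x - 1) y (by push_cast at hx; omega) (fun h' => h4 h'.2),
          hb (x - 1, y) (fun h' => h4 h'.2), add_zero] at h5
        exact h5
  rintro ⟨x, y⟩ hv'
  rcases le_or_gt (-M - 1) x with h3 | h3
  · exact key (x - (-M - 1)).toNat x y (by rw [Int.toNat_of_nonneg (by omega)]; ring) hv'
  · exact pot_left (by omega)

/-! ### Exactness at the faces -/

theorem total_shift (a : Fn) (e : Pt) : ∑ᶠ p, a (p + e) = ∑ᶠ p, a p :=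
  finsum_comp_equiv (Equiv.addRight e)

theorem finite_supp_of {S : Set Pt} (hS : S.Finite) {a : Fn} (ha : a ∈ supp S) :
    (Function.support a).Finite := by
  refine hS.subset fun p hp => ?_
  by_contra h
  exact hp (ha p h)

theorem finite_shift {a : Fn} (ha : (Function.support a).Finite) (e : Pt) :
    (Function.support fun p => a (p + e)).Finite :=
  ha.preimage (f := fun p => p + e) (fun _ _ _ _ h => add_right_cancel h)

theorem total_D1 {a b : Fn} (ha : (Function.support a).Finite) (hb : (Function.support b).Finite) :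
    ∑ᶠ p, D1 (a, b) p = 0 := by
  have e : (fun p => D1 (a, b) p) =
      fun p => (a p + a (p + ((1, 0) : Pt))) + (b p + b (p + ((0, 1) : Pt))) := by
    funext p
    rw [D1_apply]
    have e1 : p + ((1, 0) : Pt) = (p.1 + 1, p.2) := Prod.ext rfl (add_zero _)
    have e2 : p + ((0, 1) : Pt) = (p.1, p.2 + 1) := Prod.ext (add_zero _) rfl
    rw [e1, e2]
    ring
  have f1 := finite_shift ha (1, 0)
  have f2 := finite_shift hb (0, 1)
  rw [finsum_congr (fun p => congrFun e p), finsum_add_distrib, finsum_add_distrib ha f1,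
    finsum_add_distrib hb f2, total_shift, total_shift, add_self2, add_self2, add_zero]
  · exact (ha.union f1).subset (Function.support_add _ _)
  · exact (hb.union f2).subset (Function.support_add _ _)

/-- the unit function at a point -/
def pulse (f : Pt) : Fn := fun p => if p = f then 1 else 0

theorem pulse_mem {S : Set Pt} {f : Pt} (h : f ∈ S) : pulse f ∈ supp S := by
  intro v hv
  unfold pulse
  rw [if_neg]
  rintro rfl
  exact hv h

/-- the image of the edge functions -/
def img (γ : LatCycle) : Submodule (ZMod 2) Fn :=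
  Submodule.map D1 ((supp γ.evs).prod (supp γ.ehs))

theorem D1_pulse_v (x y : ℤ) : D1 (pulse (x + 1, y), 0) = pulse (x, y) + pulse (x + 1, y) := by
  funext ⟨a, b⟩
  rw [D1_apply]
  simp only [pulse, Pi.add_apply, Pi.zero_apply, add_zero, Prod.mk.injEq]
  have : (a + 1 = x + 1 ∧ b = y) ↔ (a = x ∧ b = y) := by omega
  simp only [this]
  rw [add_comm]

theorem D1_pulse_h (x y : ℤ) : D1 (0, pulse (x, y + 1)) = pulse (x, y) + pulse (x, y + 1) := by
  funext ⟨a, b⟩
  rw [D1_apply]
  simp only [pulse, Pi.add_apply, Pi.zero_apply, zero_add, Prod.mk.injEq]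
  have : (a = x ∧ b + 1 = y + 1) ↔ (a = x ∧ b = y) := by omega
  simp only [this]
  rw [add_comm]

theorem img_v {x y : ℤ} (h : ¬ γ.vedge (x + 1) y) (hi : γ.inside (x + 1, y)) :
    pulse (x, y) + pulse (x + 1, y) ∈ γ.img :=
  ⟨(pulse (x + 1, y), 0), ⟨pulse_mem ⟨h, hi⟩, Submodule.zero_mem _⟩, D1_pulse_v x y⟩

theorem img_h {x y : ℤ} (h : ¬ γ.hedge x (y + 1)) (hi : γ.inside (x, y + 1)) :
    pulse (x, y) + pulse (x, y + 1) ∈ γ.img :=
  ⟨(0, pulse (x, y + 1)), ⟨Submodule.zero_mem _, pulse_mem ⟨h, hi⟩⟩, D1_pulse_h x y⟩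

theorem img_step {f g : Pt} (h : γ.FStep f g) (hf : γ.inside f) : pulse f + pulse g ∈ γ.img := by
  have hg := h.inside_iff.1 hf
  cases h with
  | right x y h => exact img_v h hg
  | left x y h =>
    have := img_v (γ := γ) (x := x - 1) (y := y) (by rwa [sub_add_cancel])
      (by rwa [sub_add_cancel])
    rw [sub_add_cancel] at this
    rwa [add_comm]
  | up x y h => exact img_h h hg
  | down x y h =>
    have := img_h (γ := γ) (x := x) (y := y - 1) (by rwa [sub_add_cancel])
      (by rwa [sub_add_cancel])
    rw [sub_add_cancel] at this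
    rwa [add_comm]

theorem img_reach {f g : Pt} (h : γ.Reach f g) (hf : γ.inside f) : pulse f + pulse g ∈ γ.img := by
  unfold Reach at h
  induction h with
  | refl =>
    have : pulse f + pulse f = 0 := by funext p; exact add_self2 _
    rw [this]
    exact Submodule.zero_mem _
  | @tail b c hb hs ih =>
    have h1 := img_step hs ((Reach.inside_iff hb).1 hf)
    have h2 := Submodule.add_mem _ ih h1
    have e : pulse f + pulse b + (pulse b + pulse c) = pulse f + pulse c := by
      funext p
      simp only [Pi.add_apply]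
      generalize pulse f p = a1
      generalize pulse b p = a2
      generalize pulse c p = a3
      revert a1 a2 a3
      decide
    rwa [e] at h2

theorem img_pair {f g : Pt} (hf : γ.inside f) (hg : γ.inside g) : pulse f + pulse g ∈ γ.img :=
  img_reach (reach_of_inside_iff (by tauto)) hf

theorem mem_img {g : Fn} (hg : g ∈ supp γ.fin) (h : ∑ᶠ p, g p = 0) : g ∈ γ.img := by
  classical
  obtain ⟨f0, hf0⟩ := exists_inside (γ := γ)
  have hfin := fin_finite (γ := γ)
  have hsum : ∑ f ∈ hfin.toFinset, g f = 0 := by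
    rw [← h, finsum_eq_sum_of_support_subset]
    intro p hp
    rw [Set.Finite.coe_toFinset]
    by_contra h'
    exact hp (hg p h')
  have e : g = ∑ f ∈ hfin.toFinset, g f • (pulse f + pulse f0) := by
    funext p
    simp only [smul_add, sum_add_distrib, Finset.sum_apply, Pi.add_apply, Pi.smul_apply,
      smul_eq_mul]
    rw [← Finset.sum_mul, hsum, zero_mul, add_zero]
    by_cases hp : p ∈ γ.fin
    · rw [Finset.sum_eq_single p]
      · simp [pulse]
      · intro f _ hne
        simp [pulse, hne.symm]
      · intro h'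
        exact absurd (hfin.mem_toFinset.2 hp) h'
    · rw [hg p hp, Finset.sum_eq_zero]
      intro f hf
      have : p ≠ f := by rintro rfl; exact hp (hfin.mem_toFinset.1 hf)
      simp [pulse, this]
  rw [e]
  exact Submodule.sum_mem _ fun f hf =>
    Submodule.smul_mem _ _ (img_pair (hfin.mem_toFinset.1 hf) hf0)

end LatCycle

end Vale.Agent.P155
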