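import Vale.Agent.P155.A.Cross

/-!
# P155, block A2: the Kasteleyn sign of a simple lattice cycle

`∏_i κ(c i, c (i+1)) = (-1)^{#faces inside}`.
-/

namespace Vale.Agent.P155

open Finset

/-- Kasteleyn sign of the vertical edge `{(x,y),(x,y+1)}` -/
def kv (f : Pt) : ℝ := if Even f.2 then 1 else -1

/-- Kasteleyn sign of the horizontal edge `{(x,y),(x+1,y)}` -/
def kh (f : Pt) : ℝ := if Even (f.1 + f.2) then -1 else 1

theorem kv_cases (f : Pt) : kv f = 1 ∨ kv f = -1 := by unfold kv; split_ifs <;> simp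

theorem kh_cases (f : Pt) : kh f = 1 ∨ kh f = -1 := by unfold kh; split_ifs <;> simp

theorem face_prod (f : Pt) :
    kv f * kv (f.1 + 1, f.2) * (kh f * kh (f.1, f.2 + 1)) = -1 := by
  unfold kv kh
  simp only
  by_cases h2 : Even f.2 <;> by_cases h1 : Even (f.1 + f.2)
  · have h3 : ¬ Even (f.1 + (f.2 + 1)) := by
      rw [← add_assoc, Int.even_add_one]; exact not_not.2 h1
    simp [h2, h1, h3]
  · have h3 : Even (f.1 + (f.2 + 1)) := by
      rw [← add_assoc, Int.even_add_one]; exact h1
    simp [h2, h1, h3]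
  · have h3 : ¬ Even (f.1 + (f.2 + 1)) := by
      rw [← add_assoc, Int.even_add_one]; exact not_not.2 h1
    simp [h2, h1, h3]
  · have h3 : Even (f.1 + (f.2 + 1)) := by
      rw [← add_assoc, Int.even_add_one]; exact h1
    simp [h2, h1, h3]

open Classical in
/-- Kasteleyn sign of the pair `{u,v}` as an edge of `ℤ²` (symmetric) -/
noncomputable def ke (u v : Pt) : ℝ := if White u then K u v else K v u

theorem Kw_right (w : Pt) : K w (w.1 + 1, w.2) = 1 := by simp [K]

theorem Kw_left (w : Pt) : K w (w.1 - 1, w.2) = -1 := by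
  unfold K
  rw [if_neg, if_pos rfl]
  simp only [Prod.mk.injEq, not_and]; intro h; omega

theorem Kw_up (w : Pt) : K w (w.1, w.2 + 1) = sg w.2 := by
  unfold K
  rw [if_neg, if_neg, if_pos rfl]
  · simp only [Prod.mk.injEq, not_and]; intro h; omega
  · simp only [Prod.mk.injEq, not_and]; intro h; omega

theorem Kw_down (w : Pt) : K w (w.1, w.2 - 1) = - sg w.2 := by
  unfold K
  rw [if_neg, if_neg, if_neg, if_pos rfl]
  · simp only [Prod.mk.injEq, not_and]; intro h; omega
  · simp only [Prod.mk.injEq, not_and]; intro h; omega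
  · simp only [Prod.mk.injEq, not_and]; intro h; omega

theorem white_succ1 (x y : ℤ) : White (x + 1, y) ↔ ¬ White (x, y) := by
  unfold White
  simp only
  have : x + 1 + y = (x + y) + 1 := by ring
  rw [this, ← Int.not_even_iff_odd, ← Int.not_even_iff_odd, Int.even_add_one]

theorem white_succ2 (x y : ℤ) : White (x, y + 1) ↔ ¬ White (x, y) := by
  unfold White
  simp only
  rw [← add_assoc, ← Int.not_even_iff_odd, ← Int.not_even_iff_odd, Int.even_add_one]

theorem ke_v (x y : ℤ) : ke (x, y) (x, y + 1) = kv (x, y) := by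
  unfold ke kv
  have hd : K (x, y + 1) (x, y) = - sg (y + 1) := by
    have := Kw_down (x, y + 1)
    simpa only [add_sub_cancel_right] using this
  have hu : K (x, y) (x, y + 1) = sg y := Kw_up (x, y)
  by_cases h2 : Even y
  · have h3 : ¬ Even (y + 1) := by rw [Int.even_add_one]; exact not_not.2 h2
    have e1 : sg y = 1 := if_pos h2
    have e2 : sg (y + 1) = -1 := if_neg h3
    rw [hu, hd, e1, e2, neg_neg]
    simp [h2]
  · have h3 : Even (y + 1) := by rw [Int.even_add_one]; exact h2
    have e1 : sg y = -1 := if_neg h2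
    have e2 : sg (y + 1) = 1 := if_pos h3
    rw [hu, hd, e1, e2]
    simp [h2]

theorem ke_h (x y : ℤ) : ke (x, y) (x + 1, y) = kh (x, y) := by
  unfold ke kh
  split_ifs with h1 h2 h2
  · exfalso
    unfold White at h1
    rw [← Int.not_even_iff_odd] at h1
    exact h1 h2
  · exact Kw_right (x, y)
  · have := Kw_left (x + 1, y)
    simp only [add_sub_cancel_right] at this
    rw [this]
  · exfalso
    unfold White at h1
    rw [← Int.not_even_iff_odd, not_not] at h1
    exact h2 h1

theorem ke_comm {u v : Pt} (h : White u ↔ ¬ White v) : ke u v = ke v u := by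
  unfold ke
  by_cases hu : White u
  · rw [if_pos hu, if_neg (h.1 hu)]
  · rw [if_neg hu, if_pos (by by_contra hv; exact hu (h.2 hv))]

namespace LatCycle

variable {γ : LatCycle}

/-- a sign depending on a proposition -/
theorem ite_mul_ind {a : ℝ} (ha : a = 1 ∨ a = -1) {p q r : Prop} [Decidable p] [Decidable q]
    [Decidable r] (h : ind2 p = ind2 q + ind2 r) :
    (if r then a else 1) = (if p then a else 1) * (if q then a else 1) := by
  have ha2 : a * a = 1 := by rcases ha with h | h <;> rw [h] <;> norm_num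
  by_cases hp : p <;> by_cases hq : q <;> by_cases hr : r <;>
    simp only [hp, hq, hr, if_true, if_false, mul_one, one_mul, ha2] <;>
    exfalso <;> revert h <;> simp only [ind2, hp, hq, hr, if_true, if_false] <;> decide

theorem edge_unique {i j : ZMod γ.n} {u v : Pt}
    (hi : (γ.c i = u ∧ γ.c (i + 1) = v) ∨ (γ.c i = v ∧ γ.c (i + 1) = u))
    (hj : (γ.c j = u ∧ γ.c (j + 1) = v) ∨ (γ.c j = v ∧ γ.c (j + 1) = u)) : i = j := by
  have aux : ∀ {i j : ZMod γ.n}, γ.c i = γ.c (j + 1) → γ.c (i + 1) = γ.c j → i = j := by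
    intro i j h1 h2
    exfalso
    have e1 := γ.inj h1
    have e2 := γ.inj h2
    apply succ_ne_pred (γ := γ) i
    have : i - 1 = j := by rw [e1, add_sub_cancel_right]
    rw [this, e2]
  rcases hi with ⟨a, b⟩ | ⟨a, b⟩ <;> rcases hj with ⟨c, d⟩ | ⟨c, d⟩
  · exact γ.inj (a.trans c.symm)
  · exact aux (a.trans d.symm) (b.trans c.symm)
  · exact aux (a.trans d.symm) (b.trans c.symm)
  · exact γ.inj (a.trans c.symm)

open Classical in
/-- product over the steps that use one given edge -/
theorem prod_edge (u v : Pt) (a : ℝ) :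
    ∏ i : ZMod γ.n, (if (γ.c i = u ∧ γ.c (i + 1) = v) ∨ (γ.c i = v ∧ γ.c (i + 1) = u)
      then a else 1) = if γ.edge u v then a else 1 := by
  by_cases h : γ.edge u v
  · rw [if_pos h]
    obtain ⟨i, hi⟩ := h
    rw [Finset.prod_eq_single i]
    · rw [if_pos hi]
    · intro j _ hj
      rw [if_neg]
      intro h'
      exact hj (edge_unique h' hi)
    · intro h'; exact absurd (mem_univ _) h'
  · rw [if_neg h]
    apply Finset.prod_eq_one
    intro i _
    rw [if_neg]
    intro h'
    exact h ⟨i, h'⟩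

/-- a box of lattice points containing the cycle and its interior in its interior -/
noncomputable def bx (M : ℤ) : Finset Pt := Icc (-M - 1) (M + 1) ×ˢ Icc (-M - 1) (M + 1)

theorem mem_bx {M : ℤ} {f : Pt} : f ∈ bx M ↔ -M - 1 ≤ f.1 ∧ f.1 ≤ M + 1 ∧ -M - 1 ≤ f.2 ∧ f.2 ≤ M + 1 := by
  unfold bx
  rw [mem_product, mem_Icc, mem_Icc]
  tauto

open Classical in
/-- the sign of one step as a product over the box -/
theorem ke_step {M : ℤ} (hM : ∀ v ∈ γ.verts, |v.1| ≤ M ∧ |v.2| ≤ M) (i : ZMod γ.n) :
    ke (γ.c i) (γ.c (i + 1)) = ∏ f ∈ bx M,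
      ((if (γ.c i = (f.1, f.2) ∧ γ.c (i + 1) = (f.1, f.2 + 1)) ∨
          (γ.c i = (f.1, f.2 + 1) ∧ γ.c (i + 1) = (f.1, f.2)) then kv f else 1) *
        (if (γ.c i = (f.1, f.2) ∧ γ.c (i + 1) = (f.1 + 1, f.2)) ∨
          (γ.c i = (f.1 + 1, f.2) ∧ γ.c (i + 1) = (f.1, f.2)) then kh f else 1)) := by
  have h1 := hM _ ⟨i, rfl⟩
  have h2 := hM _ ⟨i + 1, rfl⟩
  rw [abs_le, abs_le] at h1 h2
  obtain ⟨⟨a1, a2⟩, a3, a4⟩ := h1
  obtain ⟨⟨b1, b2⟩, b3, b4⟩ := h2
  rcases adj_cases (γ.adj i) with h | h | h | h <;>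
    generalize γ.c (i + 1) = q at * <;> generalize γ.c i = p at * <;>
    obtain ⟨x, y⟩ := p <;> subst h <;> simp only at *
  · rw [Finset.prod_eq_single (x, y)]
    · rw [if_neg, if_pos, one_mul]
      · exact ke_h x y
      · simp
      · simp
    · rintro ⟨x', y'⟩ _ hne
      rw [if_neg, if_neg, one_mul]
      · simp only [Prod.mk.injEq, ne_eq, not_and] at hne ⊢; omega
      · simp only [Prod.mk.injEq, ne_eq, not_and] at hne ⊢; omega
    · intro h'
      exact absurd (mem_bx.2 ⟨by simp only; omega, by simp only; omega, by simp only; omega, by simp only; omega⟩) h'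
  · rw [Finset.prod_eq_single (x - 1, y)]
    · rw [if_neg, if_pos, one_mul]
      · have := ke_h (x - 1) y
        rw [sub_add_cancel] at this
        rw [← this]
        refine ke_comm ?_
        have := white_succ1 (x - 1) y
        rwa [sub_add_cancel] at this
      · simp
      · simp only [Prod.mk.injEq]; omega
    · rintro ⟨x', y'⟩ _ hne
      rw [if_neg, if_neg, one_mul]
      · simp only [Prod.mk.injEq, ne_eq, not_and] at hne ⊢; omega
      · simp only [Prod.mk.injEq, ne_eq, not_and] at hne ⊢; omega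
    · intro h'
      exact absurd (mem_bx.2 ⟨by simp only; omega, by simp only; omega, by simp only; omega, by simp only; omega⟩) h'
  · rw [Finset.prod_eq_single (x, y)]
    · rw [if_pos, if_neg, mul_one]
      · exact ke_v x y
      · simp
      · simp
    · rintro ⟨x', y'⟩ _ hne
      rw [if_neg, if_neg, one_mul]
      · simp only [Prod.mk.injEq, ne_eq, not_and] at hne ⊢; omega
      · simp only [Prod.mk.injEq, ne_eq, not_and] at hne ⊢; omega
    · intro h'
      exact absurd (mem_bx.2 ⟨by simp only; omega, by simp only; omega, by simp only; omega, by simp only; omega⟩) h'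
  · rw [Finset.prod_eq_single (x, y - 1)]
    · rw [if_pos, if_neg, mul_one]
      · have := ke_v x (y - 1)
        rw [sub_add_cancel] at this
        rw [← this]
        refine ke_comm ?_
        have := white_succ2 x (y - 1)
        rwa [sub_add_cancel] at this
      · simp only [Prod.mk.injEq]; omega
      · simp
    · rintro ⟨x', y'⟩ _ hne
      rw [if_neg, if_neg, one_mul]
      · simp only [Prod.mk.injEq, ne_eq, not_and] at hne ⊢; omega
      · simp only [Prod.mk.injEq, ne_eq, not_and] at hne ⊢; omega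
    · intro h'
      exact absurd (mem_bx.2 ⟨by simp only; omega, by simp only; omega, by simp only; omega, by simp only; omega⟩) h'

open Classical in
/-- the sign of the cycle as a product over the box -/
theorem prod_ke_box {M : ℤ} (hM : ∀ v ∈ γ.verts, |v.1| ≤ M ∧ |v.2| ≤ M) :
    ∏ i : ZMod γ.n, ke (γ.c i) (γ.c (i + 1)) = ∏ f ∈ bx M,
      ((if γ.vedge f.1 f.2 then kv f else 1) * (if γ.hedge f.1 f.2 then kh f else 1)) := by
  rw [Finset.prod_congr rfl (fun i _ => ke_step hM i), Finset.prod_comm]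
  refine Finset.prod_congr rfl fun f _ => ?_
  rw [Finset.prod_mul_distrib, prod_edge, prod_edge]
  rfl

theorem inside_bound {M : ℤ} (hM : ∀ v ∈ γ.verts, |v.1| ≤ M ∧ |v.2| ≤ M) {f : Pt}
    (hf : γ.inside f) : -M ≤ f.1 ∧ f.1 ≤ M ∧ -M ≤ f.2 ∧ f.2 ≤ M := by
  obtain ⟨x, y⟩ := f
  refine ⟨?_, ?_, ?_, ?_⟩
  · by_contra h; exact not_inside_left hM (by simpa using h) hf
  · by_contra h; exact not_inside_right hM (by simpa using h) hf
  · by_contra h; exact not_inside_vert hM (Or.inr (by simpa using h)) hf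
  · by_contra h; exact not_inside_vert hM (Or.inl (by simpa using h)) hf

open Classical in
/-- shifting a product over the interior -/
theorem prod_shift {M : ℤ} {S : Finset Pt} (τ : Pt → Pt) (hτ : Function.Injective τ)
    (hS : ∀ g ∈ S, τ g ∈ bx M) (a : Pt → ℝ) :
    ∏ f ∈ bx M, (if f ∈ S.image τ then a f else 1) = ∏ g ∈ S, a (τ g) := by
  rw [Finset.prod_ite_mem, Finset.inter_eq_right.2, Finset.prod_image]
  · exact hτ.injOn
  · intro f hf
    obtain ⟨g, hg, rfl⟩ := mem_image.1 hf
    exact hS g hg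

/-- **The Kasteleyn sign of a lattice cycle**: `∏ κ(c i, c (i+1)) = (-1)^{#faces inside}`. -/
theorem prod_ke : ∏ i : ZMod γ.n, ke (γ.c i) (γ.c (i + 1)) =
    (-1) ^ Set.ncard {f | γ.inside f} := by
  classical
  obtain ⟨M, hM0, hM⟩ := exists_bound (γ := γ)
  rw [prod_ke_box hM]
  set S : Finset Pt := (inside_finite (γ := γ)).toFinset with hS
  have memS : ∀ f, f ∈ S ↔ γ.inside f := fun f => by rw [hS, Set.Finite.mem_toFinset]; rfl
  have hcard : Set.ncard {f | γ.inside f} = S.card := by
    rw [hS, Set.ncard_eq_toFinset_card _ (inside_finite (γ := γ))]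
  have i0 : Function.Injective (fun f : Pt => f) := fun a b h => h
  have i1 : Function.Injective (fun f : Pt => ((f.1 + 1, f.2) : Pt)) := by
    rintro ⟨a, b⟩ ⟨c, d⟩ h
    simp only [Prod.mk.injEq] at h ⊢
    omega
  have i2 : Function.Injective (fun f : Pt => ((f.1, f.2 + 1) : Pt)) := by
    rintro ⟨a, b⟩ ⟨c, d⟩ h
    simp only [Prod.mk.injEq] at h ⊢
    omega
  have s0 : ∀ g ∈ S, (fun f : Pt => f) g ∈ bx M := by
    intro g hg
    obtain ⟨h1, h2, h3, h4⟩ := inside_bound hM ((memS g).1 hg)
    show g ∈ bx M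
    exact mem_bx.2 ⟨by omega, by omega, by omega, by omega⟩
  have s1 : ∀ g ∈ S, (fun f : Pt => ((f.1 + 1, f.2) : Pt)) g ∈ bx M := by
    intro g hg
    obtain ⟨h1, h2, h3, h4⟩ := inside_bound hM ((memS g).1 hg)
    exact mem_bx.2 ⟨by simp only; omega, by simp only; omega, by simp only; omega,
      by simp only; omega⟩
  have s2 : ∀ g ∈ S, (fun f : Pt => ((f.1, f.2 + 1) : Pt)) g ∈ bx M := by
    intro g hg
    obtain ⟨h1, h2, h3, h4⟩ := inside_bound hM ((memS g).1 hg)
    exact mem_bx.2 ⟨by simp only; omega, by simp only; omega, by simp only; omega,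
      by simp only; omega⟩
  have m0 : ∀ f, f ∈ S.image (fun f : Pt => f) ↔ γ.inside f := by
    intro f
    rw [mem_image]
    constructor
    · rintro ⟨g, hg, rfl⟩; exact (memS _).1 hg
    · intro h; exact ⟨f, (memS f).2 h, rfl⟩
  have m1 : ∀ f : Pt, f ∈ S.image (fun f : Pt => ((f.1 + 1, f.2) : Pt)) ↔
      γ.inside (f.1 - 1, f.2) := by
    intro f
    rw [mem_image]
    constructor
    · rintro ⟨g, hg, rfl⟩
      simp only [add_sub_cancel_right]
      exact (memS _).1 hg
    · intro h; exact ⟨(f.1 - 1, f.2), (memS _).2 h, by simp⟩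
  have m2 : ∀ f : Pt, f ∈ S.image (fun f : Pt => ((f.1, f.2 + 1) : Pt)) ↔
      γ.inside (f.1, f.2 - 1) := by
    intro f
    rw [mem_image]
    constructor
    · rintro ⟨g, hg, rfl⟩
      simp only [add_sub_cancel_right]
      exact (memS _).1 hg
    · intro h; exact ⟨(f.1, f.2 - 1), (memS _).2 h, by simp⟩
  have hstep : ∀ f ∈ bx M,
      ((if γ.vedge f.1 f.2 then kv f else 1) * (if γ.hedge f.1 f.2 then kh f else 1)) =
      ((if f ∈ S.image (fun f : Pt => f) then kv f else 1) *
        (if f ∈ S.image (fun f : Pt => ((f.1 + 1, f.2) : Pt)) then kv f else 1)) *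
      ((if f ∈ S.image (fun f : Pt => f) then kh f else 1) *
        (if f ∈ S.image (fun f : Pt => ((f.1, f.2 + 1) : Pt)) then kh f else 1)) := by
    intro f _
    congr 1
    · refine ite_mul_ind (kv_cases f) ?_
      rw [ind2_congr (m0 f), ind2_congr (m1 f)]
      exact cross_v (γ := γ) f.1 f.2
    · refine ite_mul_ind (kh_cases f) ?_
      rw [ind2_congr (m0 f), ind2_congr (m2 f)]
      exact cross_h (γ := γ) f.1 f.2
  rw [Finset.prod_congr rfl hstep, Finset.prod_mul_distrib, Finset.prod_mul_distrib,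
    Finset.prod_mul_distrib, prod_shift _ i0 s0, prod_shift _ i0 s0, prod_shift _ i1 s1,
    prod_shift _ i2 s2, ← Finset.prod_mul_distrib, ← Finset.prod_mul_distrib,
    ← Finset.prod_mul_distrib, hcard, ← Finset.prod_const]
  exact Finset.prod_congr rfl fun f _ => face_prod f

end LatCycle

end Vale.Agent.P155
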