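import Vale.Agent.P155.A.Sign
import Vale.Agent.P155.F.Cut
import Vale.Agent.P155.L.Cycle2

/-!
# P155, block A2: the Kasteleyn sign of a loop of the double dimer model

`F.SignLoop`, from the sign of a lattice cycle and Pick's formula.
-/

namespace Vale.Agent.P155.A

open Finset

/-- Pick's formula for lattice cycles -/
def Pick : Prop := ∀ γ : LatCycle,
  2 * Set.ncard {f | γ.inside f} + 2 = 2 * Set.ncard {v | v ∉ γ.verts ∧ γ.inside v} + γ.n

theorem white_adj {u v : Pt} (h : Adj u v) : White u ↔ ¬ White v := by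
  unfold Adj at h
  unfold White
  rcases abs_cases (u.1 - v.1) with ⟨h1, _⟩ | ⟨h1, _⟩ <;>
    rcases abs_cases (u.2 - v.2) with ⟨h2, _⟩ | ⟨h2, _⟩ <;>
    rw [h1, h2] at h <;> simp only [Int.odd_iff] <;> omega

section
open Classical

variable {V : Finset Pt} {m1 m2 : Pt → Pt} {L : Set Pt}

theorem loop_area (h1 : IsPM V m1) (h2 : IsPM V m2) (hL : L ∈ Loops (m1, m2)) :
    ∃ γ : LatCycle, γ.verts = L ∧ (∀ f, surr (m1, m2) L f ↔ γ.inside f) ∧
      γ.n = 2 * (V.filter (fun w => White w ∧ w ∈ L)).card ∧
      ∏ w ∈ V.filter (fun w => White w ∧ w ∈ L), (K w (m1 w) * K w (m2 w)) =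
        (-1) ^ Set.ncard {f | γ.inside f} := by
  have hω : (m1, m2) ∈ DD V := by
    unfold DD
    exact mem_product.2 ⟨mem_PM.2 h1, mem_PM.2 h2⟩
  obtain ⟨γ, hγL, -, -, hev, hod, -, hs⟩ := P155.L.exists_cycle_alt hω hL
  refine ⟨γ, hγL, hs, ?_⟩
  have hLV : L ⊆ V := P155.L.loop_subset hω hL
  have hwev : ∀ i : ZMod γ.n, White (γ.c i) ↔ Even i.val := by
    intro i
    constructor
    · intro hw
      by_contra hi
      have hb := (hod i hi).1
      unfold Black at hb
      unfold White at hw
      rw [← Int.not_even_iff_odd] at hw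
      exact hw hb
    · intro hi; exact (hev i hi).1
  have hwadj : ∀ i : ZMod γ.n, White (γ.c i) ↔ ¬ White (γ.c (i + 1)) := fun i => white_adj (γ.adj i)
  set A : Finset (ZMod γ.n) := univ.filter (fun i => White (γ.c i)) with hA
  set B : Finset (ZMod γ.n) := univ.filter (fun i => ¬ White (γ.c i)) with hB
  have himg : V.filter (fun w => White w ∧ w ∈ L) = A.image γ.c := by
    ext w
    simp only [mem_filter, mem_image, hA, mem_univ, true_and]
    constructor
    · rintro ⟨-, hw, hwL⟩
      rw [← hγL] at hwL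
      obtain ⟨i, rfl⟩ := hwL
      exact ⟨i, hw, rfl⟩
    · rintro ⟨i, hw, rfl⟩
      have : γ.c i ∈ L := by rw [← hγL]; exact ⟨i, rfl⟩
      exact ⟨hLV this, hw, this⟩
  have hBA : B.image (fun i => i + 1) = A := by
    ext i
    simp only [mem_image, hA, hB, mem_filter, mem_univ, true_and]
    constructor
    · rintro ⟨j, hj, rfl⟩
      by_contra h
      exact hj ((hwadj j).2 h)
    · intro hi
      refine ⟨i - 1, ?_, by ring⟩
      intro h
      have := (hwadj (i - 1)).1 h
      rw [sub_add_cancel] at this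
      exact this hi
  have hcardBA : B.card = A.card := by
    rw [← hBA, card_image_of_injective]
    exact add_left_injective 1
  have hcard : (V.filter (fun w => White w ∧ w ∈ L)).card = A.card := by
    rw [himg, card_image_of_injective _ γ.inj]
  constructor
  · have h3 : A.card + B.card = γ.n := by
      rw [hA, hB, Finset.card_filter_add_card_filter_not, card_univ, ZMod.card]
    omega
  · rw [← LatCycle.prod_ke, himg, prod_image γ.inj.injOn, prod_mul_distrib,
      ← Finset.prod_filter_mul_prod_filter_not univ (fun i : ZMod γ.n => White (γ.c i))]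
    congr 1
    · refine Finset.prod_congr rfl fun i hi => ?_
      have hw : White (γ.c i) := (mem_filter.1 hi).2
      rw [(hev i ((hwev i).1 hw)).2]
      unfold ke
      rw [if_pos hw]
    · rw [← hBA, prod_image (add_left_injective 1).injOn]
      refine Finset.prod_congr rfl fun i hi => ?_
      have hw : ¬ White (γ.c i) := (mem_filter.1 hi).2
      have h4 := (hod i (fun h => hw ((hwev i).2 h))).2
      simp only at h4
      unfold ke
      rw [if_neg hw, h4, h2.invol]

/-- **The sign of a loop**, from Pick's formula. -/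
theorem signLoop_of_pick (hP : Pick) : F.SignLoop := by
  intro V m1 m2 h1 h2 L hL
  obtain ⟨γ, hγL, hs, hn, hprod⟩ := loop_area h1 h2 hL
  have e : {v | v ∉ L ∧ surr (m1, m2) L v} = {v | v ∉ γ.verts ∧ γ.inside v} := by
    ext v
    simp only [Set.mem_ofPred_eq, hγL, hs]
  have hp := hP γ
  have e2 : Set.ncard {v | v ∉ L ∧ surr (m1, m2) L v} +
      (V.filter (fun w => White w ∧ w ∈ L)).card + 1 = Set.ncard {f | γ.inside f} + 2 := by
    rw [e]; omega
  have e3 : ∏ w ∈ V.filter (fun w => White w ∧ w ∈ L), (K w (m1 w) * K w (m2 w)) =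
      (-1 : ℝ) ^ (Set.ncard {v | v ∉ L ∧ surr (m1, m2) L v} +
        (V.filter (fun w => White w ∧ w ∈ L)).card + 1) := by
    rw [e2, pow_add, hprod]; norm_num
  exact e3

end

end Vale.Agent.P155.A
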