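import Vale.Agent.P155.A.TempCard

/-!
# P155, block A3b: the Kasteleyn matrix of a Temperleyan graph is invertible
-/

namespace Vale.Agent.P155

open Finset LatCycle

namespace Temp

variable {T : Temp} {f : Pt → ℝ}

theorem filter_white_V (T : Temp) : T.V.filter White = T.C.filter White := by
  ext v
  simp only [mem_filter, mem_V']
  constructor
  · rintro ⟨⟨a, _⟩, c⟩; exact ⟨a, c⟩
  · rintro ⟨a, c⟩
    refine ⟨⟨a, ?_⟩, c⟩
    rintro rfl
    exact white_iff_not_black.1 c v0_B0.black

theorem white_mem_V {w : Pt} (hw : White w) : w ∈ T.V ↔ w ∈ T.C := by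
  have := congrArg (fun s : Finset Pt => w ∈ s) (filter_white_V T)
  simp only [mem_filter, hw, and_true, eq_iff_iff] at this
  exact this

theorem B1_mem_V {b : Pt} (hb : B1 b) : b ∈ T.V ↔ b ∈ T.C := by
  rw [mem_V']
  constructor
  · exact fun h => h.1
  · intro h
    refine ⟨h, ?_⟩
    rintro rfl
    exact not_B0_of_B1 hb v0_B0

/-- both parts of the energy vanish -/
theorem energy_zero (hf : ∀ b, B1 b → b ∉ T.C → f b = 0)
    (h : ∀ w ∈ T.C, White w → Kop f w = 0) :
    (∀ w ∈ T.C, White w → Kop (r0 f) w = 0) ∧ (∀ w ∈ T.C, White w → Kop (r1 f) w = 0) := by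
  have e := (isCl T).energy_split hf
  have e0 : ∑ w ∈ T.C.filter White, Kop f w ^ 2 = 0 :=
    sum_eq_zero fun w hw => by rw [h w (mem_filter.1 hw).1 (mem_filter.1 hw).2]; norm_num
  have n0 : 0 ≤ ∑ w ∈ T.C.filter White, Kop (r0 f) w ^ 2 := sum_nonneg fun _ _ => sq_nonneg _
  have n1 : 0 ≤ ∑ w ∈ T.C.filter White, Kop (r1 f) w ^ 2 := sum_nonneg fun _ _ => sq_nonneg _
  rw [e0] at e
  have z0 : ∑ w ∈ T.C.filter White, Kop (r0 f) w ^ 2 = 0 := by linarith
  have z1 : ∑ w ∈ T.C.filter White, Kop (r1 f) w ^ 2 = 0 := by linarith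
  rw [sum_eq_zero_iff_of_nonneg fun _ _ => sq_nonneg _] at z0 z1
  constructor
  · intro w hw hwh
    have := z0 w (mem_filter.2 ⟨hw, hwh⟩)
    exact pow_eq_zero_iff (by norm_num) |>.1 this
  · intro w hw hwh
    have := z1 w (mem_filter.2 ⟨hw, hwh⟩)
    exact pow_eq_zero_iff (by norm_num) |>.1 this

theorem flat_of_zero (h : ∀ w ∈ T.C, White w → Kop (r0 f) w = 0) : Flat T f := by
  intro w hw hwh b b' hb hb' hadj hadj'
  have h0 := h w hw hwh
  rw [Kop_r0_eq hwh] at h0
  have k1 := adj_cases hadj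
  have k2 := adj_cases hadj'
  split_ifs at h0 with ho
  · have hn : ∀ v : Pt, B0 v → ¬ (v = (w.1, w.2 + 1) ∨ v = (w.1, w.2 - 1)) := by
      rintro v hv (rfl | rfl) <;> exact (Int.not_even_iff_odd.2 ho) hv.1
    have j1 : b = (w.1 + 1, w.2) ∨ b = (w.1 - 1, w.2) := by
      have := hn b hb; tauto
    have j2 : b' = (w.1 + 1, w.2) ∨ b' = (w.1 - 1, w.2) := by
      have := hn b' hb'; tauto
    rcases j1 with rfl | rfl <;> rcases j2 with rfl | rfl <;> linarith
  · have he : Even w.1 := Int.not_odd_iff_even.1 ho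
    have hn : ∀ v : Pt, B0 v → ¬ (v = (w.1 + 1, w.2) ∨ v = (w.1 - 1, w.2)) := by
      rintro v hv (rfl | rfl)
      · exact (Int.not_even_iff_odd.2 he.add_one) hv.1
      · exact (Int.not_even_iff_odd.2 (he.sub_odd odd_one)) hv.1
    have j1 : b = (w.1, w.2 + 1) ∨ b = (w.1, w.2 - 1) := by
      have := hn b hb; tauto
    have j2 : b' = (w.1, w.2 + 1) ∨ b' = (w.1, w.2 - 1) := by
      have := hn b' hb'; tauto
    have hs : sg w.2 ≠ 0 := by
      intro hs
      have := sg_sq w.2
      rw [hs] at this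
      norm_num at this
    have h1 : f (w.1, w.2 + 1) - f (w.1, w.2 - 1) = 0 := by
      rcases mul_eq_zero.1 h0 with h' | h'
      · exact absurd h' hs
      · exact h'
    rcases j1 with rfl | rfl <;> rcases j2 with rfl | rfl <;> linarith

theorem B1_zero (hf : ∀ b, B1 b → b ∉ T.C → f b = 0)
    (h : ∀ w ∈ T.C, White w → Kop (r1 f) w = 0) {b : Pt} (hb : B1 b) : f b = 0 := by
  obtain ⟨x, y, rfl⟩ := B1_cases hb
  obtain ⟨M, hM0, hM⟩ := exists_bound (γ := T.γ)
  have hodd : ∀ k : ℤ, Odd (2 * k + 1) := fun k => ⟨k, rfl⟩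
  have key : ∀ k : ℕ, ∀ x : ℤ, x = -M - 1 + k → f (2 * x + 1, 2 * y + 1) = 0 := by
    intro k
    induction k with
    | zero =>
      intro x hx
      refine hf _ ⟨hodd x, hodd y⟩ ?_
      rw [mem_C, mem_B1]
      exact not_inside_left hM (by simp at hx; omega)
    | succ k ih =>
      intro x hx
      by_cases hi : T.γ.inside (x, y)
      · have e := ih (x - 1) (by push_cast at hx; omega)
        have hw : (2 * x, 2 * y + 1) ∈ T.C := (cell_W hi).2.2.1
        have hwh : White (2 * x, 2 * y + 1) := ⟨x + y, by simp only; ring⟩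
        have h0 := h _ hw hwh
        rw [Kop_r1_eq hwh, if_neg (by rw [Int.not_odd_iff_even]; exact ⟨x, by simp only; ring⟩)]
          at h0
        simp only at h0
        rw [show 2 * (x - 1) + 1 = 2 * x - 1 by ring] at e
        rw [e] at h0
        linarith
      · refine hf _ ⟨hodd x, hodd y⟩ ?_
        rw [mem_C, mem_B1]
        exact hi
  rcases le_or_gt (-M - 1) x with h' | h'
  · exact key (x - (-M - 1)).toNat x (by rw [Int.toNat_of_nonneg (by omega)]; ring)
  · refine hf _ ⟨hodd x, hodd y⟩ ?_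
    rw [mem_C, mem_B1]
    exact not_inside_left hM (by omega)

/-- **the kernel of `K` is trivial** -/
theorem kernel (hf : ∀ b, b ∉ T.V → f b = 0) (h : ∀ w ∈ T.V, White w → Kop f w = 0) :
    ∀ b, Black b → f b = 0 := by
  have hf1 : ∀ b, B1 b → b ∉ T.C → f b = 0 := fun b hb hbC =>
    hf b fun h' => hbC ((B1_mem_V hb).1 h')
  have h' : ∀ w ∈ T.C, White w → Kop f w = 0 := fun w hw hwh =>
    h w ((white_mem_V hwh).2 hw) hwh
  obtain ⟨z0, z1⟩ := energy_zero hf1 h'
  intro b hb
  rcases black_iff.1 hb with hb | hb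
  · by_cases hbC : b ∈ T.C
    · rw [(flat_of_zero z0).eq hbC hb]
      exact hf _ fun h' => (mem_V'.1 h').2 rfl
    · exact hf b fun h' => hbC (V_subset h')
  · exact B1_zero hf1 z1 hb

/-! ### the matrix -/

theorem KM_apply_white {V : Finset Pt} {w : Pt} (hw : w ∈ V) (hwh : White w) (b : V) :
    KM V ⟨w, hw⟩ b = K w b := by
  unfold KM; rw [if_pos hwh]

theorem KM_apply_black {V : Finset Pt} {b : Pt} (hb : b ∈ V) (hbl : Black b) (w : V) :
    KM V ⟨b, hb⟩ w = K w b := by
  unfold KM; rw [if_neg]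
  intro h; exact white_iff_not_black.1 h hbl

theorem K_symm_zero {u v : Pt} (hu : White u) (hv : White v) : K u v = 0 := by
  refine K_eq_zero fun h => ?_
  exact white_iff_not_black.1 hv (h.black hu)

theorem K_zero_black {u v : Pt} (hu : Black u) (hv : Black v) : K u v = 0 := by
  refine K_eq_zero fun h => ?_
  exact white_iff_not_black.1 (h.white hu) hv

/-- extension by zero -/
noncomputable def ext0 (V : Finset Pt) (g : V → ℝ) (v : Pt) : ℝ :=
  if h : v ∈ V then g ⟨v, h⟩ else 0

theorem ext0_mem {V : Finset Pt} {g : V → ℝ} {v : Pt} (h : v ∈ V) : ext0 V g v = g ⟨v, h⟩ :=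
  dif_pos h

theorem ext0_not_mem {V : Finset Pt} {g : V → ℝ} {v : Pt} (h : v ∉ V) : ext0 V g v = 0 :=
  dif_neg h

theorem sum_coe (V : Finset Pt) (F : Pt → ℝ) : ∑ v : V, F v = ∑ v ∈ V, F v :=
  Finset.sum_coe_sort V F

theorem KM_mulVec_white {V : Finset Pt} (g : V → ℝ) {w : Pt} (hw : w ∈ V) (hwh : White w) :
    (KM V).mulVec g ⟨w, hw⟩ = Kop (ext0 V g) w := by
  rw [← sum_K_eq V (fun b _ hb => ext0_not_mem hb), ← sum_coe V]
  unfold Matrix.mulVec dotProduct
  refine Finset.sum_congr rfl fun b _ => ?_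
  change KM V ⟨w, hw⟩ b * g b = _
  rw [KM_apply_white hw hwh, ext0_mem b.2]

theorem KM_mulVec_black {V : Finset Pt} (g : V → ℝ) {b : Pt} (hb : b ∈ V) (hbl : Black b) :
    (KM V).mulVec g ⟨b, hb⟩ = KTop (ext0 V g) b := by
  rw [← sum_KT_eq V (fun w _ hw => ext0_not_mem hw), ← sum_coe V]
  unfold Matrix.mulVec dotProduct
  refine Finset.sum_congr rfl fun w _ => ?_
  change KM V ⟨b, hb⟩ w * g w = _
  rw [KM_apply_black hb hbl, ext0_mem w.2]

/-- **the Kasteleyn matrix is invertible** -/
theorem det_ne_zero (T : Temp) (hcard : (T.V.filter White).card = (T.V.filter Black).card) :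
    (KM T.V).det ≠ 0 := by
  classical
  -- the rectangular block `W × B`
  set V := T.V with hV
  set W := V.filter White with hW
  set B := V.filter Black with hB
  let M : (B → ℝ) →ₗ[ℝ] (W → ℝ) :=
    { toFun := fun g w => Kop (ext0 B g) w
      map_add' := by
        intro g g'
        funext w
        simp only [Pi.add_apply]
        rw [← Kop_add]
        refine Kop_congr fun b _ => ?_
        by_cases hb : b ∈ B
        · simp only [ext0_mem hb, Pi.add_apply]
        · simp only [ext0_not_mem hb, add_zero]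
      map_smul' := by
        intro c g
        funext w
        simp only [Pi.smul_apply, smul_eq_mul, RingHom.id_apply]
        have : ∀ b, ext0 B (c • g) b = c * ext0 B g b := by
          intro b
          by_cases hb : b ∈ B
          · simp only [ext0_mem hb, Pi.smul_apply, smul_eq_mul]
          · simp only [ext0_not_mem hb, mul_zero]
        unfold Kop
        simp only [this]
        ring }
  have hMinj : Function.Injective M := by
    rw [← LinearMap.ker_eq_bot, LinearMap.ker_eq_bot']
    intro g hg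
    have hz := kernel (T := T) (f := ext0 B g)
      (fun b hb => ext0_not_mem fun h => hb (mem_filter.1 h).1)
      (fun w hw hwh => by
        have := congrFun hg ⟨w, mem_filter.2 ⟨hw, hwh⟩⟩
        exact this)
    funext b
    have := hz b.1 (mem_filter.1 b.2).2
    rw [ext0_mem b.2] at this
    exact this
  have hMsurj : Function.Surjective M := by
    refine (LinearMap.injective_iff_surjective_of_finrank_eq_finrank ?_).1 hMinj
    rw [Module.finrank_fintype_fun_eq_card, Module.finrank_fintype_fun_eq_card,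
      Fintype.card_coe, Fintype.card_coe]
    exact hcard.symm
  -- kernel of the symmetric matrix
  rw [Ne, ← Matrix.exists_mulVec_eq_zero_iff]
  rintro ⟨g, hg0, hg⟩
  apply hg0
  -- the black part
  have hblack : ∀ b ∈ V, Black b → ext0 V g b = 0 := by
    intro b _ hbl
    have hz := kernel (T := T) (f := fun v => if Black v then ext0 V g v else 0)
      (fun b hb => by
        split_ifs
        · exact ext0_not_mem hb
        · rfl)
      (fun w hw hwh => by
        have h1 := congrFun hg ⟨w, hw⟩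
        rw [KM_mulVec_white g hw hwh, Pi.zero_apply] at h1
        rw [← h1]
        refine Kop_congr fun b hb => ?_
        rw [if_pos ((mem_nbrs.1 hb).black hwh)])
    have := hz b hbl
    simpa [hbl] using this
  -- the white part
  have hwhite : ∀ w ∈ V, White w → ext0 V g w = 0 := by
    obtain ⟨φ, hφ⟩ := hMsurj (fun w => ext0 V g w)
    -- `‖g_W‖² = ⟨g_W, M φ⟩ = ⟨Kᵀ g_W, φ⟩ = 0`
    have hKT : ∀ b ∈ B, ∑ w ∈ W, K w b * ext0 V g w = 0 := by
      intro b hb
      obtain ⟨hbV, hbl⟩ := mem_filter.1 hb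
      have h1 := congrFun hg ⟨b, hbV⟩
      rw [KM_mulVec_black g hbV hbl] at h1
      have e : ∑ w ∈ W, K w b * ext0 V g w = KTop (ext0 V g) b := by
        rw [sum_KT_eq]
        intro w hw hwW
        have hwh : White w := (mem_nbrs.1 hw).white hbl
        exact ext0_not_mem fun h' => hwW (mem_filter.2 ⟨h', hwh⟩)
      rw [e, h1]; rfl
    have hsum : ∑ w ∈ W, ext0 V g w ^ 2 = 0 := by
      have h1 : ∀ w ∈ W, ext0 V g w = ∑ b ∈ B, K w b * ext0 B φ b := by
        intro w hw
        have := congrFun hφ ⟨w, hw⟩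
        change Kop (ext0 B φ) w = ext0 V g w at this
        rw [← this, sum_K_eq]
        exact fun b _ hb => ext0_not_mem hb
      calc ∑ w ∈ W, ext0 V g w ^ 2
          = ∑ w ∈ W, ∑ b ∈ B, ext0 B φ b * (K w b * ext0 V g w) := by
            refine sum_congr rfl fun w hw => ?_
            rw [sq]
            nth_rewrite 2 [h1 w hw]
            rw [mul_sum]
            exact sum_congr rfl fun b _ => by ring
        _ = ∑ b ∈ B, ext0 B φ b * ∑ w ∈ W, K w b * ext0 V g w := by
            rw [sum_comm]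
            exact sum_congr rfl fun b _ => by rw [mul_sum]
        _ = 0 := sum_eq_zero fun b hb => by rw [hKT b hb, mul_zero]
    rw [sum_eq_zero_iff_of_nonneg fun _ _ => sq_nonneg _] at hsum
    intro w hw hwh
    have := hsum w (mem_filter.2 ⟨hw, hwh⟩)
    exact pow_eq_zero_iff (by norm_num) |>.1 this
  funext v
  by_cases hv : Black v.1
  · have := hblack v.1 v.2 hv
    rw [ext0_mem v.2] at this
    exact this
  · have := hwhite v.1 v.2 (white_iff_not_black.2 hv)
    rw [ext0_mem v.2] at this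
    exact this

end Temp

end Vale.Agent.P155
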