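import Vale.Agent.P155.A.Temp

/-!
# P155, block A3b: the inverse Kasteleyn matrix: relations, energy, Laplace equation
-/

set_option linter.unusedSectionVars false

namespace Vale.Agent.P155

open Finset LatCycle

/-! ### general finite vertex sets with invertible Kasteleyn matrix -/

section general

open Temp

variable {V : Finset Pt}

theorem KM_symm (u v : V) : KM V u v = KM V v u := by
  by_cases hu : White u.1 <;> by_cases hv : White v.1
  · unfold KM; rw [if_pos hu, if_pos hv, K_symm_zero hu hv, K_symm_zero hv hu]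
  · unfold KM; rw [if_pos hu, if_neg hv]
  · unfold KM; rw [if_neg hu, if_pos hv]
  · have hu' : Black u.1 := by by_contra h; exact hu (white_iff_not_black.2 h)
    have hv' : Black v.1 := by by_contra h; exact hv (white_iff_not_black.2 h)
    unfold KM; rw [if_neg hu, if_neg hv, K_zero_black hu' hv', K_zero_black hv' hu']

theorem KM_isSymm (V : Finset Pt) : (KM V).IsSymm := by
  ext u v; rw [Matrix.transpose_apply]; exact KM_symm v u

theorem Kinv_eq_ext0 {w : Pt} (hw : w ∈ V) (b : Pt) :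
    Kinv V b w = ext0 V (fun b => (KM V)⁻¹ b ⟨w, hw⟩) b := by
  unfold Kinv ext0
  by_cases hb : b ∈ V
  · rw [dif_pos hb, dif_pos hw, dif_pos hb]
  · rw [dif_neg hb, dif_neg hb]

theorem Kinv_not_mem_left {b w : Pt} (hb : b ∉ V) : Kinv V b w = 0 := by
  unfold Kinv; rw [dif_neg hb]

theorem Kinv_not_mem_right {b w : Pt} (hw : w ∉ V) : Kinv V b w = 0 := by
  unfold Kinv; split_ifs <;> rfl

theorem Kinv_symm (b w : Pt) : Kinv V b w = Kinv V w b := by
  by_cases hb : b ∈ V
  · by_cases hw : w ∈ V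
    · unfold Kinv
      rw [dif_pos hb, dif_pos hw, dif_pos hw, dif_pos hb]
      have h : Matrix.transpose ((KM V)⁻¹) = (KM V)⁻¹ := by
        rw [Matrix.transpose_nonsing_inv, (KM_isSymm V).eq]
      have := congrFun (congrFun h ⟨w, hw⟩) ⟨b, hb⟩
      rw [Matrix.transpose_apply] at this
      exact this
    · rw [Kinv_not_mem_right hw, Kinv_not_mem_left hw]
  · rw [Kinv_not_mem_left hb, Kinv_not_mem_right hb]

variable (hdet : (KM V).det ≠ 0)

include hdet

theorem KM_mul_inv : KM V * (KM V)⁻¹ = 1 :=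
  Matrix.mul_nonsing_inv _ (isUnit_iff_ne_zero.2 hdet)

/-- column of the inverse: white rows -/
theorem Kop_Kinv {w w' : Pt} (hw : w ∈ V) (hw' : w' ∈ V) (hwh' : White w') :
    Kop (fun b => Kinv V b w) w' = if w' = w then 1 else 0 := by
  have h := congrFun (congrFun (KM_mul_inv hdet) ⟨w', hw'⟩) ⟨w, hw⟩
  have e : (KM V * (KM V)⁻¹) ⟨w', hw'⟩ ⟨w, hw⟩
      = (KM V).mulVec (fun b => (KM V)⁻¹ b ⟨w, hw⟩) ⟨w', hw'⟩ := rfl
  rw [e, KM_mulVec_white _ hw' hwh'] at h
  have e2 : Kop (fun b => Kinv V b w) w' = Kop (ext0 V fun b => (KM V)⁻¹ b ⟨w, hw⟩) w' :=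
    Kop_congr fun b _ => Kinv_eq_ext0 hw b
  rw [e2, h, Matrix.one_apply]
  by_cases hww : w' = w
  · rw [if_pos hww, if_pos (Subtype.ext hww)]
  · rw [if_neg hww, if_neg fun h' => hww (congrArg Subtype.val h')]

/-- column of the inverse: black rows -/
theorem KTop_Kinv {v b' : Pt} (hv : v ∈ V) (hb' : b' ∈ V) (hbl' : Black b') :
    KTop (fun w => Kinv V w v) b' = if b' = v then 1 else 0 := by
  have h := congrFun (congrFun (KM_mul_inv hdet) ⟨b', hb'⟩) ⟨v, hv⟩
  have e : (KM V * (KM V)⁻¹) ⟨b', hb'⟩ ⟨v, hv⟩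
      = (KM V).mulVec (fun b => (KM V)⁻¹ b ⟨v, hv⟩) ⟨b', hb'⟩ := rfl
  rw [e, KM_mulVec_black _ hb' hbl'] at h
  have e2 : KTop (fun b => Kinv V b v) b' = KTop (ext0 V fun b => (KM V)⁻¹ b ⟨v, hv⟩) b' :=
    KTop_congr fun b _ => Kinv_eq_ext0 hv b
  rw [e2, h, Matrix.one_apply]
  by_cases hww : b' = v
  · rw [if_pos hww, if_pos (Subtype.ext hww)]
  · rw [if_neg hww, if_neg fun h' => hww (congrArg Subtype.val h')]

/-- row of the inverse -/
theorem KTop_Kinv_row {b b' : Pt} (hb : b ∈ V) (hb' : b' ∈ V) (hbl' : Black b') :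
    KTop (fun w => Kinv V b w) b' = if b' = b then 1 else 0 := by
  rw [← KTop_Kinv hdet hb hb' hbl']
  exact KTop_congr fun w _ => Kinv_symm b w

/-- the inverse vanishes on pairs of the same colour (white) -/
theorem Kinv_white_white {u w : Pt} (hu : White u) (hwh : White w) : Kinv V u w = 0 := by
  by_cases hw : w ∈ V
  swap
  · exact Kinv_not_mem_right hw
  by_cases huV : u ∈ V
  swap
  · exact Kinv_not_mem_left huV
  set g : V → ℝ := fun v => if White v.1 then (KM V)⁻¹ v ⟨w, hw⟩ else 0 with hg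
  have hz : (KM V).mulVec g = 0 := by
    funext v
    by_cases hv : White v.1
    · have h1 := KM_mulVec_white g v.2 hv
      have h2 : Kop (ext0 V g) v.1 = Kop (fun _ => 0) v.1 := by
        refine Kop_congr fun b hb => ?_
        by_cases hbV : b ∈ V
        · rw [ext0_mem hbV, hg]
          simp only
          rw [if_neg fun h => white_iff_not_black.1 h ((mem_nbrs.1 hb).black hv)]
        · exact ext0_not_mem hbV
      rw [show (⟨v.1, v.2⟩ : V) = v from rfl] at h1
      rw [h1, h2]
      simp [Kop]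
    · have hv' : Black v.1 := by by_contra h; exact hv (white_iff_not_black.2 h)
      have h1 := KM_mulVec_black g v.2 hv'
      rw [show (⟨v.1, v.2⟩ : V) = v from rfl] at h1
      have h2 : KTop (ext0 V g) v.1 = KTop (fun u => Kinv V u w) v.1 := by
        refine KTop_congr fun b hb => ?_
        have hbw : White b := (mem_nbrs.1 hb).white hv'
        by_cases hbV : b ∈ V
        · rw [ext0_mem hbV, Kinv_eq_ext0 hw, ext0_mem hbV, hg]
          simp only
          rw [if_pos hbw]
        · rw [ext0_not_mem hbV, Kinv_not_mem_left hbV]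
      rw [h1, h2, KTop_Kinv hdet hw v.2 hv', if_neg]
      · rfl
      · intro h; rw [h] at hv'; exact white_iff_not_black.1 hwh hv'
  have hg0 : g = 0 := by
    by_contra hne
    exact hdet (Matrix.exists_mulVec_eq_zero_iff.1 ⟨g, hne, hz⟩)
  have h3 := congrFun hg0 ⟨u, huV⟩
  rw [Kinv_eq_ext0 hw, ext0_mem huV]
  rw [hg] at h3
  simp only [Pi.zero_apply] at h3
  rw [if_pos hu] at h3
  exact h3

/-- the inverse vanishes on pairs of the same colour (black) -/
theorem Kinv_black_black {u w : Pt} (hu : Black u) (hwb : Black w) : Kinv V u w = 0 := by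
  by_cases hw : w ∈ V
  swap
  · exact Kinv_not_mem_right hw
  by_cases huV : u ∈ V
  swap
  · exact Kinv_not_mem_left huV
  set g : V → ℝ := fun v => if Black v.1 then (KM V)⁻¹ v ⟨w, hw⟩ else 0 with hg
  have hz : (KM V).mulVec g = 0 := by
    funext v
    by_cases hv : Black v.1
    · have h1 := KM_mulVec_black g v.2 hv
      have h2 : KTop (ext0 V g) v.1 = KTop (fun _ => 0) v.1 := by
        refine KTop_congr fun b hb => ?_
        by_cases hbV : b ∈ V
        · rw [ext0_mem hbV, hg]
          simp only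
          rw [if_neg fun h => white_iff_not_black.1 ((mem_nbrs.1 hb).white hv) h]
        · exact ext0_not_mem hbV
      rw [show (⟨v.1, v.2⟩ : V) = v from rfl] at h1
      rw [h1, h2]
      simp [KTop]
    · have hv' : White v.1 := white_iff_not_black.2 hv
      have h1 := KM_mulVec_white g v.2 hv'
      rw [show (⟨v.1, v.2⟩ : V) = v from rfl] at h1
      have h2 : Kop (ext0 V g) v.1 = Kop (fun u => Kinv V u w) v.1 := by
        refine Kop_congr fun b hb => ?_
        have hbw : Black b := (mem_nbrs.1 hb).black hv'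
        by_cases hbV : b ∈ V
        · rw [ext0_mem hbV, Kinv_eq_ext0 hw, ext0_mem hbV, hg]
          simp only
          rw [if_pos hbw]
        · rw [ext0_not_mem hbV, Kinv_not_mem_left hbV]
      rw [h1, h2, Kop_Kinv hdet hw v.2 hv', if_neg]
      · rfl
      · intro h; rw [h] at hv'; exact white_iff_not_black.1 hv' hwb
  have hg0 : g = 0 := by
    by_contra hne
    exact hdet (Matrix.exists_mulVec_eq_zero_iff.1 ⟨g, hne, hz⟩)
  have h3 := congrFun hg0 ⟨u, huV⟩
  rw [Kinv_eq_ext0 hw, ext0_mem huV]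
  rw [hg] at h3
  simp only [Pi.zero_apply] at h3
  rw [if_pos hu] at h3
  exact h3

/-- the form of `Skel.A_inv` -/
theorem sum_K_Kinv {w w' : Pt} (hw : w ∈ V) (hw' : w' ∈ V) (hwh' : White w') :
    ∑ b ∈ nbrs w', K w' b * Kinv V b w = if w' = w then 1 else 0 := by
  rw [sum_nbrs_K (fun b => Kinv V b w) w']
  exact Kop_Kinv hdet hw hw' hwh'

theorem sum_Kinv_K {b b' : Pt} (hb : b ∈ V) (hb' : b' ∈ V) (hbl' : Black b') :
    ∑ w ∈ nbrs b', Kinv V b w * K w b' = if b' = b then 1 else 0 := by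
  rw [← KTop_Kinv_row hdet hb hb' hbl', ← sum_nbrs_KT]
  exact sum_congr rfl fun w _ => mul_comm _ _

/-- a nonzero determinant gives a perfect matching -/
theorem exists_isPM : ∃ m, IsPM V m := by
  classical
  have h1 : ∃ σ : Equiv.Perm V, ∏ v, KM V (σ v) v ≠ 0 := by
    by_contra hcon
    push Not at hcon
    apply hdet
    rw [Matrix.det_apply]
    refine Finset.sum_eq_zero fun σ _ => ?_
    rw [hcon σ, smul_zero]
  obtain ⟨σ, hσ⟩ := h1
  have hσ' : ∀ v : V, KM V (σ v) v ≠ 0 := fun v hv =>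
    hσ (Finset.prod_eq_zero (Finset.mem_univ v) hv)
  have hadj : ∀ v : V, Adj (σ v).1 v.1 := by
    intro v
    by_contra hna
    apply hσ' v
    unfold KM
    split_ifs
    · exact K_eq_zero hna
    · exact K_eq_zero fun h => hna (adj_comm.1 h)
  have hcol : ∀ v : V, White v.1 → Black (σ v).1 := fun v hv => (adj_comm.1 (hadj v)).black hv
  have hcol' : ∀ v : V, Black v.1 → White (σ v).1 := fun v hv => (adj_comm.1 (hadj v)).white hv
  have hcolinv : ∀ v : V, Black v.1 → White (σ.symm v).1 := by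
    intro v hv
    have := hadj (σ.symm v)
    rw [Equiv.apply_symm_apply] at this
    exact this.white hv
  -- match each white vertex `v` with `σ v`
  refine ⟨fun v => if h : v ∈ V then (if White v then (σ ⟨v, h⟩).1 else (σ.symm ⟨v, h⟩).1) else v,
    ?_, ?_, ?_⟩
  · intro v
    by_cases h : v ∈ V
    · by_cases hw : White v
      · have e1 : (σ ⟨v, h⟩).1 ∈ V := (σ ⟨v, h⟩).2
        have hb : ¬ White (σ ⟨v, h⟩).1 := fun h' => white_iff_not_black.1 h' (hcol _ hw)
        simp only [h, hw, dif_pos, if_true, e1, hb, if_false]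
        simp
      · have hbl : Black v := by by_contra h'; exact hw (white_iff_not_black.2 h')
        have e1 : (σ.symm ⟨v, h⟩).1 ∈ V := (σ.symm ⟨v, h⟩).2
        have hb : White (σ.symm ⟨v, h⟩).1 := hcolinv _ hbl
        simp only [h, hw, dif_pos, if_false, e1, hb, if_true]
        simp
    · simp [h]
  · intro v hv
    simp [hv]
  · intro v hv
    by_cases hw : White v
    · simp only [hv, hw, dif_pos, if_true]
      exact adj_comm.1 (hadj ⟨v, hv⟩)
    · simp only [hv, hw, dif_pos, if_false]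
      have := hadj (σ.symm ⟨v, hv⟩)
      rw [Equiv.apply_symm_apply] at this
      exact this

theorem Z_pos : 0 < Z V := by
  obtain ⟨m, hm⟩ := exists_isPM hdet
  exact Finset.card_pos.2 ⟨m, mem_PM.2 hm⟩

end general

/-! ### the inverse Kasteleyn matrix of a Temperleyan graph -/

namespace Temp

variable {T : Temp}

section

variable (hdet : (KM T.V).det ≠ 0) {w0 : Pt} (hw0 : w0 ∈ T.V) (hwh0 : White w0)

include hdet hw0 hwh0

theorem Kinv_B1_off {b : Pt} (_hb : B1 b) (hbC : b ∉ T.C) : Kinv T.V b w0 = 0 :=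
  Kinv_not_mem_left fun h => hbC (V_subset h)

/-- **total energy of `K_D⁻¹(·, w0)` is `1`** -/
theorem energy_one :
    ∑ w ∈ T.C.filter White, Kop (r0 fun b => Kinv T.V b w0) w ^ 2
      + ∑ w ∈ T.C.filter White, Kop (r1 fun b => Kinv T.V b w0) w ^ 2 = 1 := by
  classical
  rw [← (isCl T).energy_split fun b hb hbC => Kinv_B1_off hdet hw0 hwh0 hb hbC]
  have h1 : ∀ w ∈ T.C.filter White, Kop (fun b => Kinv T.V b w0) w ^ 2
      = if w = w0 then 1 else 0 := by
    intro w hw
    obtain ⟨hwC, hwh⟩ := mem_filter.1 hw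
    rw [Kop_Kinv hdet hw0 ((white_mem_V hwh).2 hwC) hwh]
    split_ifs <;> norm_num
  rw [sum_congr rfl h1, sum_ite_eq' , if_pos]
  exact mem_filter.2 ⟨(white_mem_V hwh0).1 hw0, hwh0⟩

/-- **Laplace equation of `K_D⁻¹(·, w0)`**: Neumann on (even,even) points of the closed graph
(including `v0`), Dirichlet on (odd,odd) points. -/
theorem laplace_Kinv {b : Pt} (hb : b ∈ T.C) (hbl : Black b) :
    ∑ w ∈ (nbrs b).filter (· ∈ T.C), (Kinv T.V b w0 - Kinv T.V (mirror w b) w0) = K w0 b := by
  classical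
  have h := (isCl T).laplace (f := fun b => Kinv T.V b w0)
    (fun b hb hbC => Kinv_B1_off hdet hw0 hwh0 hb hbC) hb hbl
  rw [← h]
  have h1 : ∀ w ∈ T.C.filter White, K w b * Kop (fun b => Kinv T.V b w0) w
      = if w = w0 then K w0 b else 0 := by
    intro w hw
    obtain ⟨hwC, hwh⟩ := mem_filter.1 hw
    rw [Kop_Kinv hdet hw0 ((white_mem_V hwh).2 hwC) hwh]
    split_ifs with hww
    · rw [hww, mul_one]
    · rw [mul_zero]
  rw [sum_congr rfl h1, sum_ite_eq', if_pos]
  exact mem_filter.2 ⟨(white_mem_V hwh0).1 hw0, hwh0⟩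

/-- for every white vertex of the graph: Cauchy–Riemann equations off `w0` -/
theorem cr_Kinv {w : Pt} (hw : w ∈ T.C) (hwh : White w) :
    Kop (r0 fun b => Kinv T.V b w0) w + Kop (r1 fun b => Kinv T.V b w0) w
      = if w = w0 then 1 else 0 := by
  rw [← Kop_split hwh]
  exact Kop_Kinv hdet hw0 ((white_mem_V hwh).2 hw) hwh

end

end Temp

end Vale.Agent.P155
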