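import Vale.Agent.P155.A.TempGeo

/-!
# P155, block A3b: counting the vertices of a Temperleyan graph
-/

namespace Vale.Agent.P155

open Finset LatCycle

namespace Temp

variable {T : Temp}

theorem white_cases {w : Pt} (hw : White w) :
    (∃ a b : ℤ, w = (2 * a + 1, 2 * b)) ∨ (∃ a b : ℤ, w = (2 * a, 2 * b + 1)) := by
  obtain ⟨x, y⟩ := w
  unfold White at hw
  simp only at hw
  rcases Int.even_or_odd x with ⟨a, ha⟩ | ⟨a, ha⟩
  · right
    obtain ⟨k, hk⟩ := hw
    exact ⟨a, k - a, by ext <;> simp only <;> omega⟩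
  · left
    obtain ⟨k, hk⟩ := hw
    exact ⟨a, k - a, by ext <;> simp only <;> omega⟩

theorem B1_cases {b : Pt} (hb : B1 b) : ∃ x y : ℤ, b = (2 * x + 1, 2 * y + 1) := by
  obtain ⟨⟨x, hx⟩, ⟨y, hy⟩⟩ := hb
  exact ⟨x, y, by ext <;> simp only <;> omega⟩

theorem B0_cases {b : Pt} (hb : B0 b) : ∃ x y : ℤ, b = (2 * x, 2 * y) := by
  obtain ⟨⟨x, hx⟩, ⟨y, hy⟩⟩ := hb
  exact ⟨x, y, by ext <;> simp only <;> omega⟩

/-- midpoints of the edges of the cycle -/
noncomputable def mids (T : Temp) : Finset Pt := Finset.univ.image T.mid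

theorem mid_injective (T : Temp) : Function.Injective T.mid := by
  intro i j h
  unfold mid at h
  rw [Prod.mk.injEq] at h
  have h1 := T.γ.adj i
  have h2 := T.γ.adj j
  -- the two edges coincide as sets
  have h1' := adj_cases h1
  have h2' := adj_cases h2
  have key : T.γ.c i = T.γ.c j ∨ (T.γ.c i = T.γ.c (j + 1) ∧ T.γ.c (i + 1) = T.γ.c j) := by
    generalize T.γ.c i = p at *
    generalize T.γ.c (i + 1) = q at *
    generalize T.γ.c j = p' at *
    generalize T.γ.c (j + 1) = q' at *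
    obtain ⟨p1, p2⟩ := p
    obtain ⟨q1, q2⟩ := q
    obtain ⟨p1', p2'⟩ := p'
    obtain ⟨q1', q2'⟩ := q'
    simp only [Prod.mk.injEq] at *
    omega
  rcases key with k | ⟨k1, k2⟩
  · exact T.γ.inj k
  · exfalso
    have e1 := T.γ.inj k1
    have e2 := T.γ.inj k2
    refine succ_ne_pred (γ := T.γ) i ?_
    rw [e2, e1]
    congr 1
    ring

theorem card_mids (T : Temp) : T.mids.card = T.γ.n := by
  unfold mids
  rw [card_image_of_injective _ (mid_injective T), card_univ, ZMod.card]

theorem mem_mids {w : Pt} : w ∈ T.mids ↔ ∃ u v, T.γ.edge u v ∧ w = (u.1 + v.1, u.2 + v.2) := by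
  unfold mids
  simp only [mem_image, mem_univ, true_and]
  constructor
  · rintro ⟨i, rfl⟩
    exact ⟨_, _, ⟨i, Or.inl ⟨rfl, rfl⟩⟩, rfl⟩
  · rintro ⟨u, v, ⟨i, ⟨h1, h2⟩ | ⟨h1, h2⟩⟩, rfl⟩
    · exact ⟨i, by unfold mid; rw [h1, h2]⟩
    · exact ⟨i, by unfold mid; rw [h1, h2, add_comm v.1, add_comm v.2]⟩

theorem mem_mids_W0 {a b : ℤ} : (2 * a + 1, 2 * b) ∈ T.mids ↔ T.γ.hedge a b := by
  rw [mem_mids, hedge_iff]
  constructor
  · rintro ⟨u, v, h, e⟩
    rw [Prod.mk.injEq] at e
    have hadj := adj_cases h.adj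
    obtain ⟨u1, u2⟩ := u
    obtain ⟨v1, v2⟩ := v
    simp only [Prod.mk.injEq] at e hadj
    rcases hadj with k | k | k | k
    · have e1 : u1 = a := by omega
      have e2 : u2 = b := by omega
      rw [k.1, k.2, e1, e2] at h
      exact h
    · have e1 : u1 = a + 1 := by omega
      have e2 : u2 = b := by omega
      rw [k.1, k.2, e1, e2] at h
      rw [show a + 1 - 1 = a by ring] at h
      exact edge_comm.1 h
    · omega
    · omega
  · intro h
    exact ⟨_, _, h, by ext <;> simp only <;> ring⟩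

theorem mem_mids_W1 {a b : ℤ} : (2 * a, 2 * b + 1) ∈ T.mids ↔ T.γ.vedge a b := by
  rw [mem_mids, vedge_iff]
  constructor
  · rintro ⟨u, v, h, e⟩
    rw [Prod.mk.injEq] at e
    have hadj := adj_cases h.adj
    obtain ⟨u1, u2⟩ := u
    obtain ⟨v1, v2⟩ := v
    simp only [Prod.mk.injEq] at e hadj
    rcases hadj with k | k | k | k
    · omega
    · omega
    · have e1 : u1 = a := by omega
      have e2 : u2 = b := by omega
      rw [k.1, k.2, e1, e2] at h
      exact h
    · have e1 : u1 = a := by omega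
      have e2 : u2 = b + 1 := by omega
      rw [k.1, k.2, e1, e2] at h
      rw [show b + 1 - 1 = b by ring] at h
      exact edge_comm.1 h
  · intro h
    exact ⟨_, _, h, by ext <;> simp only <;> ring⟩

theorem mids_subset : T.mids ⊆ T.C.filter White := by
  intro w hw
  obtain ⟨i, -, rfl⟩ := mem_image.1 hw
  exact mem_filter.2 ⟨mem_C.2 (mid_mem i), mid_white i⟩

/-- the number of inside cells at a white vertex -/
theorem card_B1_nbr {w : Pt} (hw : w ∈ T.C.filter White) :
    ((T.C.filter B1).filter fun b => Adj w b).card = if w ∈ T.mids then 1 else 2 := by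
  obtain ⟨hwC, hwh⟩ := mem_filter.1 hw
  rw [mem_C] at hwC
  rcases white_cases hwh with ⟨a, b, rfl⟩ | ⟨a, b, rfl⟩
  · have hm := mem_mids_W0 (T := T) (a := a) (b := b)
    have key : (T.C.filter B1).filter (fun v => Adj (2 * a + 1, 2 * b) v)
        = ({(2 * a + 1, 2 * b + 1), (2 * a + 1, 2 * (b - 1) + 1)} : Finset Pt).filter
          (fun v => v ∈ T.C) := by
      ext v
      simp only [mem_filter, mem_insert, mem_singleton]
      constructor
      · rintro ⟨⟨h1, h2⟩, h3⟩
        refine ⟨?_, h1⟩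
        obtain ⟨x, y, rfl⟩ := B1_cases h2
        have h4 := adj_cases h3
        simp only [Prod.mk.injEq] at h4 ⊢
        omega
      · rintro ⟨h1 | h1, h2⟩
        · subst h1
          refine ⟨⟨h2, ⟨⟨a, rfl⟩, ⟨b, rfl⟩⟩⟩, ?_⟩
          unfold Adj; simp only; ring_nf; norm_num
        · subst h1
          refine ⟨⟨h2, ⟨⟨a, rfl⟩, ⟨b - 1, rfl⟩⟩⟩, ?_⟩
          unfold Adj; simp only; ring_nf; norm_num
    rw [key, filter_insert, filter_singleton]
    have k1 : (2 * a + 1, 2 * b + 1) ∈ T.C ↔ T.γ.inside (a, b) := by rw [mem_C, mem_B1]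
    have k2 : (2 * a + 1, 2 * (b - 1) + 1) ∈ T.C ↔ T.γ.inside (a, b - 1) := by rw [mem_C, mem_B1]
    have hne : (2 * a + 1, 2 * b + 1) ≠ ((2 * a + 1, 2 * (b - 1) + 1) : Pt) := by
      intro h; rw [Prod.mk.injEq] at h; omega
    by_cases he : T.γ.hedge a b
    · have hx := inside_iff_h' a b he
      by_cases hi : T.γ.inside (a, b)
      · rw [if_pos (k1.2 hi), if_neg (fun h => hx.1 hi (k2.1 h)), if_pos (hm.2 he)]; rfl
      · have : T.γ.inside (a, b - 1) := by by_contra h'; exact hi (hx.2 h')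
        rw [if_neg (fun h => hi (k1.1 h)), if_pos (k2.2 this), if_pos (hm.2 he)]; rfl
    · have hx := inside_iff_h a b he
      rw [mem_W0, ← hx, or_self] at hwC
      rw [if_pos (k1.2 hwC), if_pos (k2.2 (hx.1 hwC)), if_neg (fun h => he (hm.1 h)), card_insert_of_notMem, card_singleton]
      rw [mem_singleton]; exact hne
  · have hm := mem_mids_W1 (T := T) (a := a) (b := b)
    have key : (T.C.filter B1).filter (fun v => Adj (2 * a, 2 * b + 1) v)
        = ({(2 * a + 1, 2 * b + 1), (2 * (a - 1) + 1, 2 * b + 1)} : Finset Pt).filter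
          (fun v => v ∈ T.C) := by
      ext v
      simp only [mem_filter, mem_insert, mem_singleton]
      constructor
      · rintro ⟨⟨h1, h2⟩, h3⟩
        refine ⟨?_, h1⟩
        obtain ⟨x, y, rfl⟩ := B1_cases h2
        have h4 := adj_cases h3
        simp only [Prod.mk.injEq] at h4 ⊢
        omega
      · rintro ⟨h1 | h1, h2⟩
        · subst h1
          refine ⟨⟨h2, ⟨⟨a, rfl⟩, ⟨b, rfl⟩⟩⟩, ?_⟩
          unfold Adj; simp only; ring_nf; norm_num
        · subst h1
          refine ⟨⟨h2, ⟨⟨a - 1, rfl⟩, ⟨b, rfl⟩⟩⟩, ?_⟩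
          unfold Adj; simp only; ring_nf; norm_num
    rw [key, filter_insert, filter_singleton]
    have k1 : (2 * a + 1, 2 * b + 1) ∈ T.C ↔ T.γ.inside (a, b) := by rw [mem_C, mem_B1]
    have k2 : (2 * (a - 1) + 1, 2 * b + 1) ∈ T.C ↔ T.γ.inside (a - 1, b) := by rw [mem_C, mem_B1]
    have hne : (2 * a + 1, 2 * b + 1) ≠ ((2 * (a - 1) + 1, 2 * b + 1) : Pt) := by
      intro h; rw [Prod.mk.injEq] at h; omega
    by_cases he : T.γ.vedge a b
    · have hx := inside_iff_v' a b he
      by_cases hi : T.γ.inside (a, b)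
      · rw [if_pos (k1.2 hi), if_neg (fun h => hx.1 hi (k2.1 h)), if_pos (hm.2 he)]; rfl
      · have : T.γ.inside (a - 1, b) := by by_contra h'; exact hi (hx.2 h')
        rw [if_neg (fun h => hi (k1.1 h)), if_pos (k2.2 this), if_pos (hm.2 he)]; rfl
    · have hx := inside_iff_v a b he
      rw [mem_W1, ← hx, or_self] at hwC
      rw [if_pos (k1.2 hwC), if_pos (k2.2 (hx.1 hwC)), if_neg (fun h => he (hm.1 h)), card_insert_of_notMem, card_singleton]
      rw [mem_singleton]; exact hne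

theorem card_nbrs (v : Pt) : (nbrs v).card = 4 := by
  have := sum_nbrs v (fun _ => (1 : ℕ))
  rw [card_eq_sum_ones, this]
  rfl

theorem card_W_nbr {b : Pt} (hb : b ∈ T.C.filter B1) :
    ((T.C.filter White).filter fun w => Adj w b).card = 4 := by
  obtain ⟨hbC, hb1⟩ := mem_filter.1 hb
  rw [← card_nbrs b]
  congr 1
  ext w
  simp only [mem_filter]
  constructor
  · rintro ⟨-, h⟩; exact mem_nbrs.2 (adj_comm.1 h)
  · intro h
    exact ⟨⟨(isCl T).nbr_mem hbC hb1 h, (mem_nbrs.1 h).white hb1.black⟩, adj_comm.1 (mem_nbrs.1 h)⟩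

/-- double counting of pairs (edge, cell) -/
theorem two_card_white (T : Temp) :
    2 * (T.C.filter White).card = 4 * (T.C.filter B1).card + T.γ.n := by
  have h := sum_card_bipartiteAbove_eq_sum_card_bipartiteBelow
    (s := T.C.filter White) (t := T.C.filter B1) Adj
  have h1 : ∑ w ∈ T.C.filter White, (bipartiteAbove Adj (T.C.filter B1) w).card
      = 2 * ((T.C.filter White).card - T.γ.n) + T.γ.n := by
    have e : ∀ w ∈ T.C.filter White, (bipartiteAbove Adj (T.C.filter B1) w).card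
        = if w ∈ T.mids then 1 else 2 := fun w hw => card_B1_nbr hw
    rw [sum_congr rfl e, sum_ite, sum_const, sum_const, filter_mem_eq_inter,
      inter_eq_right.2 mids_subset, card_mids]
    have e2 : (T.C.filter White).filter (fun w => w ∉ T.mids) = (T.C.filter White) \ T.mids := by
      ext w; simp only [mem_filter, mem_sdiff]
    rw [e2, card_sdiff_of_subset mids_subset, card_mids]
    simp only [smul_eq_mul]
    ring
  have h2 : ∑ b ∈ T.C.filter B1, (bipartiteBelow Adj (T.C.filter White) b).card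
      = 4 * (T.C.filter B1).card := by
    have e : ∀ b ∈ T.C.filter B1, (bipartiteBelow Adj (T.C.filter White) b).card = 4 :=
      fun b hb => card_W_nbr hb
    rw [sum_congr rfl e, sum_const, smul_eq_mul, mul_comm]
  have h3 : T.γ.n ≤ (T.C.filter White).card := by
    rw [← card_mids T]; exact card_le_card mids_subset
  rw [h1, h2] at h
  omega

theorem card_B1 (T : Temp) : (T.C.filter B1).card = Set.ncard {f | T.γ.inside f} := by
  rw [← Set.ncard_coe_finset]
  symm
  refine Set.ncard_congr (fun (f : Pt) _ => ((2 * f.1 + 1, 2 * f.2 + 1) : Pt)) ?_ ?_ ?_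
  · rintro ⟨a, b⟩ h
    simp only [coe_filter, Set.mem_ofPred_eq]
    exact ⟨mem_C.2 (mem_B1.2 h), ⟨⟨a, rfl⟩, ⟨b, rfl⟩⟩⟩
  · rintro ⟨a, b⟩ ⟨a', b'⟩ _ _ h
    rw [Prod.mk.injEq] at h
    ext <;> simp only at h ⊢ <;> omega
  · intro v hv
    simp only [coe_filter, Set.mem_ofPred_eq] at hv
    obtain ⟨x, y, rfl⟩ := B1_cases hv.2
    exact ⟨(x, y), mem_B1.1 (mem_C.1 hv.1), rfl⟩

/-- a coarse vertex off the cycle lies in the closed region iff it is inside -/
theorem mem_off {v : Pt} (hv : v ∉ T.γ.verts) : dbl v ∈ T.closedVerts ↔ T.γ.inside v := by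
  obtain ⟨h1, h2, h3⟩ := corner_iff hv
  obtain ⟨a, b⟩ := v
  unfold dbl
  simp only at h1 h2 h3 ⊢
  rw [mem_B0]
  tauto

theorem card_B0 (T : Temp) : (T.C.filter B0).card
    = T.γ.n + Set.ncard {v | v ∉ T.γ.verts ∧ T.γ.inside v} := by
  have hinj : Function.Injective dbl := by
    rintro ⟨a, b⟩ ⟨a', b'⟩ h
    unfold dbl at h
    rw [Prod.mk.injEq] at h
    ext <;> simp only at h ⊢ <;> omega
  have hfin : {v | v ∉ T.γ.verts ∧ T.γ.inside v}.Finite :=
    (inside_finite (γ := T.γ)).subset fun v hv => hv.2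
  have e : ((T.C.filter B0 : Finset Pt) : Set Pt)
      = dbl '' (T.γ.verts ∪ {v | v ∉ T.γ.verts ∧ T.γ.inside v}) := by
    ext v
    simp only [coe_filter, Set.mem_ofPred_eq, Set.mem_image, Set.mem_union]
    constructor
    · rintro ⟨h1, h2⟩
      obtain ⟨x, y, rfl⟩ := B0_cases h2
      refine ⟨(x, y), ?_, rfl⟩
      by_cases hv : (x, y) ∈ T.γ.verts
      · exact Or.inl hv
      · exact Or.inr ⟨hv, (mem_off hv).1 (mem_C.1 h1)⟩
    · rintro ⟨u, hu, rfl⟩
      refine ⟨mem_C.2 ?_, dbl_B0 u⟩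
      rcases hu with hu | hu
      · exact verts_mem hu
      · exact (mem_off hu.1).2 hu.2
  rw [← Set.ncard_coe_finset, e, Set.ncard_image_of_injective _ hinj,
    Set.ncard_union_eq _ verts_finite hfin]
  · congr 1
    unfold LatCycle.verts
    rw [Set.ncard_eq_toFinset_card', Set.toFinset_range, card_image_of_injective _ T.γ.inj,
      card_univ, ZMod.card]
  · rw [Set.disjoint_left]
    intro v hv hv'
    exact hv'.1 hv

/-- the number of white vertices equals the number of black ones, given Euler's formula -/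
theorem card_of_euler (T : Temp)
    (h : 2 * Set.ncard {f | T.γ.inside f} + 2
      = 2 * Set.ncard {v | v ∉ T.γ.verts ∧ T.γ.inside v} + T.γ.n) :
    (T.V.filter White).card = (T.V.filter Black).card := by
  have h1 := two_card_white T
  have h2 := card_B1 T
  have h3 := card_B0 T
  have e1 : T.V.filter White = T.C.filter White := by
    ext v
    simp only [mem_filter, mem_V']
    constructor
    · rintro ⟨⟨a, _⟩, c⟩; exact ⟨a, c⟩
    · rintro ⟨a, c⟩
      refine ⟨⟨a, ?_⟩, c⟩
      rintro rfl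
      exact white_iff_not_black.1 c v0_B0.black
  have e2 : T.V.filter Black = (T.C.filter B0).erase T.v0 ∪ T.C.filter B1 := by
    ext v
    simp only [mem_filter, mem_V', mem_union, mem_erase]
    constructor
    · rintro ⟨⟨a, b⟩, c⟩
      rcases black_iff.1 c with c | c
      · exact Or.inl ⟨b, a, c⟩
      · exact Or.inr ⟨a, c⟩
    · rintro (⟨a, b, c⟩ | ⟨a, b⟩)
      · exact ⟨⟨b, a⟩, c.black⟩
      · refine ⟨⟨a, ?_⟩, b.black⟩
        rintro rfl
        exact not_B0_of_B1 b v0_B0
  have hd : Disjoint ((T.C.filter B0).erase T.v0) (T.C.filter B1) := by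
    rw [Finset.disjoint_left]
    intro v hv hv'
    exact not_B0_of_B1 (mem_filter.1 hv').2 (mem_filter.1 (mem_of_mem_erase hv)).2
  rw [e1, e2, card_union_of_disjoint hd, card_erase_of_mem (mem_filter.2 ⟨mem_C.2 (v0_mem T), v0_B0⟩)]
  omega

end Temp

end Vale.Agent.P155
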