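import Vale.Agent.P155.A.Cross
import Vale.Agent.P155.A.Cl

/-!
# P155, block A3b: geometry of Temperleyan graphs
-/

namespace Vale.Agent.P155

open Finset LatCycle

namespace Temp

variable {T : Temp}

theorem cells_finite : T.cells.Finite := inside_finite

theorem mem_cells {f : Pt} : f ∈ T.cells ↔ T.γ.inside f := Iff.rfl

theorem closedVerts_finite (T : Temp) : T.closedVerts.Finite := by
  have h : T.closedVerts ⊆ ⋃ f ∈ T.cells,
      (Set.Icc (2 * f.1) (2 * f.1 + 2)) ×ˢ (Set.Icc (2 * f.2) (2 * f.2 + 2)) := by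
    rintro v ⟨f, hf, h1, h2, h3, h4⟩
    rw [Set.mem_iUnion₂]
    exact ⟨f, hf, ⟨⟨h1, h2⟩, ⟨h3, h4⟩⟩⟩
  refine Set.Finite.subset (Set.Finite.biUnion cells_finite fun f _ => ?_) h
  exact (Set.finite_Icc _ _).prod (Set.finite_Icc _ _)

theorem faceSet_finite (T : Temp) : T.faceSet.Finite := by
  refine (closedVerts_finite T).subset ?_
  rintro v ⟨f, hf, h1, h2, h3, h4⟩
  exact ⟨f, hf, h1, by omega, h3, by omega⟩

open Classical in
/-- the closed vertex set as a finset -/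
noncomputable def C (T : Temp) : Finset Pt := (closedVerts_finite T).toFinset

theorem mem_C {v : Pt} : v ∈ T.C ↔ v ∈ T.closedVerts := by
  unfold C; rw [Set.Finite.mem_toFinset]

theorem mem_V {v : Pt} : v ∈ T.V ↔ v ∈ T.closedVerts ∧ v ≠ T.v0 := by
  have h : (T.closedVerts \ {T.v0}).Finite := (closedVerts_finite T).subset Set.sdiff_subset
  unfold V
  rw [dif_pos h, Set.Finite.mem_toFinset, Set.mem_sdiff, Set.mem_singleton_iff]

theorem mem_V' {v : Pt} : v ∈ T.V ↔ v ∈ T.C ∧ v ≠ T.v0 := by rw [mem_V, mem_C]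

theorem V_eq : T.V = T.C.erase T.v0 := by
  ext v
  rw [mem_V', mem_erase, and_comm]

theorem V_subset : T.V ⊆ T.C := fun _ h => (mem_V'.1 h).1

/-! ### membership by type -/

theorem mem_closed_iff {x y : ℤ} : (x, y) ∈ T.closedVerts ↔
    ∃ a b : ℤ, T.γ.inside (a, b) ∧ 2 * a ≤ x ∧ x ≤ 2 * a + 2 ∧ 2 * b ≤ y ∧ y ≤ 2 * b + 2 := by
  constructor
  · rintro ⟨⟨a, b⟩, hf, h1, h2, h3, h4⟩
    exact ⟨a, b, hf, h1, h2, h3, h4⟩
  · rintro ⟨a, b, hf, h1, h2, h3, h4⟩
    exact ⟨(a, b), hf, h1, h2, h3, h4⟩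

theorem mem_B1 {a b : ℤ} : (2 * a + 1, 2 * b + 1) ∈ T.closedVerts ↔ T.γ.inside (a, b) := by
  rw [mem_closed_iff]
  constructor
  · rintro ⟨a', b', h, h1, h2, h3, h4⟩
    have e1 : a' = a := by omega
    have e2 : b' = b := by omega
    rw [← e1, ← e2]; exact h
  · intro h
    exact ⟨a, b, h, by omega, by omega, by omega, by omega⟩

theorem mem_W0 {a b : ℤ} : (2 * a + 1, 2 * b) ∈ T.closedVerts ↔
    T.γ.inside (a, b) ∨ T.γ.inside (a, b - 1) := by
  rw [mem_closed_iff]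
  constructor
  · rintro ⟨a', b', h, h1, h2, h3, h4⟩
    have e1 : a' = a := by omega
    have e2 : b' = b ∨ b' = b - 1 := by omega
    rcases e2 with e2 | e2
    · left; rw [← e1, ← e2]; exact h
    · right; rw [← e1, ← e2]; exact h
  · rintro (h | h)
    · exact ⟨a, b, h, by omega, by omega, by omega, by omega⟩
    · exact ⟨a, b - 1, h, by omega, by omega, by omega, by omega⟩

theorem mem_W1 {a b : ℤ} : (2 * a, 2 * b + 1) ∈ T.closedVerts ↔
    T.γ.inside (a, b) ∨ T.γ.inside (a - 1, b) := by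
  rw [mem_closed_iff]
  constructor
  · rintro ⟨a', b', h, h1, h2, h3, h4⟩
    have e1 : b' = b := by omega
    have e2 : a' = a ∨ a' = a - 1 := by omega
    rcases e2 with e2 | e2
    · left; rw [← e1, ← e2]; exact h
    · right; rw [← e1, ← e2]; exact h
  · rintro (h | h)
    · exact ⟨a, b, h, by omega, by omega, by omega, by omega⟩
    · exact ⟨a - 1, b, h, by omega, by omega, by omega, by omega⟩

theorem mem_B0 {a b : ℤ} : (2 * a, 2 * b) ∈ T.closedVerts ↔
    T.γ.inside (a, b) ∨ T.γ.inside (a - 1, b) ∨ T.γ.inside (a, b - 1) ∨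
      T.γ.inside (a - 1, b - 1) := by
  rw [mem_closed_iff]
  constructor
  · rintro ⟨a', b', h, h1, h2, h3, h4⟩
    have e1 : a' = a ∨ a' = a - 1 := by omega
    have e2 : b' = b ∨ b' = b - 1 := by omega
    rcases e1 with e1 | e1 <;> rcases e2 with e2 | e2 <;> rw [e1, e2] at h
    · exact Or.inl h
    · exact Or.inr (Or.inr (Or.inl h))
    · exact Or.inr (Or.inl h)
    · exact Or.inr (Or.inr (Or.inr h))
  · rintro (h | h | h | h)
    · exact ⟨a, b, h, by omega, by omega, by omega, by omega⟩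
    · exact ⟨a - 1, b, h, by omega, by omega, by omega, by omega⟩
    · exact ⟨a, b - 1, h, by omega, by omega, by omega, by omega⟩
    · exact ⟨a - 1, b - 1, h, by omega, by omega, by omega, by omega⟩

/-- the closed vertex set is a closed union of cells -/
theorem isCl (T : Temp) : IsCl T.C := by
  refine ⟨?_, ?_⟩
  · rintro ⟨x, y⟩ hb ⟨⟨a, ha⟩, ⟨b, hb'⟩⟩ ⟨p, q⟩ h1 h2
    simp only at ha hb' h1 h2
    rw [mem_C] at hb ⊢
    rw [ha, hb', mem_B1] at hb
    rw [mem_closed_iff]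
    rw [abs_le] at h1 h2
    exact ⟨a, b, hb, by omega, by omega, by omega, by omega⟩
  · rintro ⟨x, y⟩ hw hwh ⟨p, q⟩ ⟨hp, hq⟩ hadj
    have hn := mem_nbrs.2 hadj
    simp only [nbrs, mem_insert, mem_singleton, Prod.mk.injEq] at hn
    rw [mem_C] at hw ⊢
    obtain ⟨a', b', hi, h1, h2, h3, h4⟩ := mem_closed_iff.1 hw
    simp only at hp hq
    obtain ⟨k, hk⟩ := hp
    obtain ⟨l, hl⟩ := hq
    rw [mem_closed_iff]
    exact ⟨a', b', hi, by omega, by omega, by omega, by omega⟩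

/-! ### the cycle inside the graph -/

/-- both sides of an edge of the cycle: exactly one is inside -/
theorem edge_mem {u v : Pt} (h : T.γ.edge u v) : (u.1 + v.1, u.2 + v.2) ∈ T.closedVerts := by
  have hadj := adj_cases h.adj
  obtain ⟨x, y⟩ := u
  rcases hadj with rfl | rfl | rfl | rfl
  · have he : T.γ.hedge x y := h
    have := inside_iff_h' x y he
    have e : ((x, y).1 + ((x, y).1 + 1, (x, y).2).1, (x, y).2 + ((x, y).1 + 1, (x, y).2).2)
        = (2 * x + 1, 2 * y) := by ext <;> simp only <;> ring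
    rw [e, mem_W0]
    tauto
  · have he : T.γ.hedge (x - 1) y := by
      have := edge_comm.1 h
      rw [hedge_iff, sub_add_cancel]; exact this
    have := inside_iff_h' (x - 1) y he
    have e : ((x, y).1 + ((x, y).1 - 1, (x, y).2).1, (x, y).2 + ((x, y).1 - 1, (x, y).2).2)
        = (2 * (x - 1) + 1, 2 * y) := by ext <;> simp only <;> ring
    rw [e, mem_W0]
    tauto
  · have he : T.γ.vedge x y := h
    have := inside_iff_v' x y he
    have e : ((x, y).1 + ((x, y).1, (x, y).2 + 1).1, (x, y).2 + ((x, y).1, (x, y).2 + 1).2)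
        = (2 * x, 2 * y + 1) := by ext <;> simp only <;> ring
    rw [e, mem_W1]
    tauto
  · have he : T.γ.vedge x (y - 1) := by
      have := edge_comm.1 h
      rw [vedge_iff, sub_add_cancel]; exact this
    have := inside_iff_v' x (y - 1) he
    have e : ((x, y).1 + ((x, y).1, (x, y).2 - 1).1, (x, y).2 + ((x, y).1, (x, y).2 - 1).2)
        = (2 * x, 2 * (y - 1) + 1) := by ext <;> simp only <;> ring
    rw [e, mem_W1]
    tauto

/-- the midpoint of the edge `c i, c (i+1)` -/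
def mid (T : Temp) (i : ZMod T.γ.n) : Pt :=
  ((T.γ.c i).1 + (T.γ.c (i + 1)).1, (T.γ.c i).2 + (T.γ.c (i + 1)).2)

theorem mid_mem (i : ZMod T.γ.n) : T.mid i ∈ T.closedVerts :=
  edge_mem ⟨i, Or.inl ⟨rfl, rfl⟩⟩

/-- the fine position of a coarse vertex -/
def dbl (v : Pt) : Pt := (2 * v.1, 2 * v.2)

theorem dbl_B0 (v : Pt) : B0 (dbl v) := ⟨⟨v.1, by simp only [dbl]; ring⟩, ⟨v.2, by simp only [dbl]; ring⟩⟩

theorem v0_eq : T.v0 = dbl (T.γ.c T.i0) := rfl

theorem v0_B0 : B0 T.v0 := dbl_B0 _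

theorem mid_adj (i : ZMod T.γ.n) : Adj (T.mid i) (dbl (T.γ.c i)) := by
  have := T.γ.adj i
  unfold Adj at this ⊢
  unfold mid dbl
  simp only
  rw [← this, abs_sub_comm (T.γ.c i).1, abs_sub_comm (T.γ.c i).2]
  congr 2 <;> ring

theorem mid_adj' (i : ZMod T.γ.n) : Adj (T.mid i) (dbl (T.γ.c (i + 1))) := by
  have := T.γ.adj i
  unfold Adj at this ⊢
  unfold mid dbl
  simp only
  rw [← this]
  congr 2 <;> ring

theorem mid_white (i : ZMod T.γ.n) : White (T.mid i) :=
  (adj_comm.1 (mid_adj i)).white (dbl_B0 _).black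

/-- the vertices of the cycle are in the closed vertex set -/
theorem verts_mem {v : Pt} (hv : v ∈ T.γ.verts) : dbl v ∈ T.closedVerts := by
  obtain ⟨i, rfl⟩ := hv
  rw [← mem_C]
  exact (isCl T).edge _ (mem_C.2 (mid_mem i)) (mid_white i) _ (dbl_B0 _) (mid_adj i)

theorem v0_mem (T : Temp) : T.v0 ∈ T.closedVerts := verts_mem ⟨T.i0, rfl⟩

/-! ### connectivity: a function constant along the white vertices is constant -/

/-- a function on the (even,even) points equal on both ends of every white vertex -/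
def Flat (T : Temp) (g : Pt → ℝ) : Prop :=
  ∀ w ∈ T.C, White w → ∀ b b', B0 b → B0 b' → Adj w b → Adj w b' → g b = g b'

theorem Flat.cycle {g : Pt → ℝ} (h : Flat T g) (i : ZMod T.γ.n) :
    g (dbl (T.γ.c i)) = g T.v0 := by
  have step : ∀ i, g (dbl (T.γ.c i)) = g (dbl (T.γ.c (i + 1))) := fun i =>
    h _ (mem_C.2 (mid_mem i)) (mid_white i) _ _ (dbl_B0 _) (dbl_B0 _) (mid_adj i) (mid_adj' i)
  have key : ∀ k : ℕ, g (dbl (T.γ.c (T.i0 + k))) = g T.v0 := by
    intro k
    induction k with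
    | zero => simp [v0_eq]
    | succ k ih =>
      rw [← ih, step (T.i0 + k)]
      push_cast
      rw [add_assoc]
  have := key (i - T.i0).val
  rw [ZMod.natCast_zmod_val, add_sub_cancel] at this
  exact this

theorem cell_W {a b : ℤ} (h : T.γ.inside (a, b)) :
    (2 * a + 1, 2 * b) ∈ T.C ∧ (2 * a + 1, 2 * b + 2) ∈ T.C ∧ (2 * a, 2 * b + 1) ∈ T.C ∧
      (2 * a + 2, 2 * b + 1) ∈ T.C := by
  simp only [mem_C, mem_closed_iff]
  refine ⟨⟨a, b, h, ?_⟩, ⟨a, b, h, ?_⟩, ⟨a, b, h, ?_⟩, ⟨a, b, h, ?_⟩⟩ <;>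
    refine ⟨?_, ?_, ?_, ?_⟩ <;> omega

theorem Flat.cell {g : Pt → ℝ} (h : Flat T g) {a b : ℤ} (hi : T.γ.inside (a, b)) :
    g (2 * a + 2, 2 * b) = g (2 * a, 2 * b) ∧ g (2 * a, 2 * b + 2) = g (2 * a, 2 * b) ∧
      g (2 * a + 2, 2 * b + 2) = g (2 * a, 2 * b) := by
  obtain ⟨w1, w2, w3, w4⟩ := cell_W hi
  have ev : ∀ k : ℤ, Even (2 * k) := fun k => ⟨k, by ring⟩
  have ev2 : ∀ k : ℤ, Even (2 * k + 2) := fun k => ⟨k + 1, by ring⟩
  have wh0 : ∀ x y : ℤ, White (2 * x + 1, 2 * y) := fun x y => ⟨x + y, by simp only; ring⟩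
  have wh0' : ∀ x y : ℤ, White (2 * x + 1, 2 * y + 2) := fun x y => ⟨x + y + 1, by simp only; ring⟩
  have wh1 : ∀ x y : ℤ, White (2 * x, 2 * y + 1) := fun x y => ⟨x + y, by simp only; ring⟩
  have k1 : g (2 * a + 2, 2 * b) = g (2 * a, 2 * b) :=
    h _ w1 (wh0 a b) _ _ ⟨ev2 a, ev b⟩ ⟨ev a, ev b⟩ (by unfold Adj; simp only; ring_nf; norm_num)
      (by unfold Adj; simp only; ring_nf; norm_num)
  have k2 : g (2 * a, 2 * b + 2) = g (2 * a, 2 * b) :=
    h _ w3 (wh1 a b) _ _ ⟨ev a, ev2 b⟩ ⟨ev a, ev b⟩ (by unfold Adj; simp only; ring_nf; norm_num)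
      (by unfold Adj; simp only; ring_nf; norm_num)
  have k3 : g (2 * a + 2, 2 * b + 2) = g (2 * a, 2 * b + 2) :=
    h _ w2 (wh0' a b) _ _ ⟨ev2 a, ev2 b⟩ ⟨ev a, ev2 b⟩
      (by unfold Adj; simp only; ring_nf; norm_num) (by unfold Adj; simp only; ring_nf; norm_num)
  exact ⟨k1, k2, k3.trans k2⟩

theorem Flat.inside {g : Pt → ℝ} (h : Flat T g) {a b : ℤ} (hi : T.γ.inside (a, b)) :
    g (2 * a, 2 * b) = g T.v0 := by
  obtain ⟨M, hM0, hM⟩ := exists_bound (γ := T.γ)
  have key : ∀ k : ℕ, ∀ a : ℤ, a = -M - 1 + k → T.γ.inside (a, b) →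
      g (2 * a, 2 * b) = g T.v0 := by
    intro k
    induction k with
    | zero =>
      intro a ha hi
      exact absurd hi (not_inside_left hM (by simp at ha; omega))
    | succ k ih =>
      intro a ha hi
      by_cases hv : T.γ.vedge a b
      · obtain ⟨i, hi'⟩ := ((vedge_iff _ _ _).1 hv).mem_left
        have := h.cycle i
        rw [hi'] at this
        exact this
      · have hi2 := (inside_iff_v a b hv).1 hi
        have e := ih (a - 1) (by push_cast at ha; omega) hi2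
        have e2 := (h.cell hi2).1
        have e3 : 2 * (a - 1) + 2 = 2 * a := by ring
        rw [e3] at e2
        rw [e2, e]
  rcases le_or_gt (-M - 1) a with h' | h'
  · exact key (a - (-M - 1)).toNat a (by rw [Int.toNat_of_nonneg (by omega)]; ring) hi
  · exact absurd hi (not_inside_left hM (by omega))

/-- a flat function is constant -/
theorem Flat.eq {g : Pt → ℝ} (h : Flat T g) {v : Pt} (hv : v ∈ T.C) (h0 : B0 v) :
    g v = g T.v0 := by
  obtain ⟨x, y⟩ := v
  obtain ⟨⟨a, ha⟩, ⟨b, hb⟩⟩ := h0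
  simp only at ha hb
  have e1 : x = 2 * a := by omega
  have e2 : y = 2 * b := by omega
  rw [mem_C, e1, e2, mem_B0] at hv
  rw [e1, e2]
  rcases hv with h1 | h1 | h1 | h1
  · exact h.inside h1
  · have k := (h.cell h1).1
    rw [show 2 * (a - 1) + 2 = 2 * a by ring] at k
    rw [k, h.inside h1]
  · have k := (h.cell h1).2.1
    rw [show 2 * (b - 1) + 2 = 2 * b by ring] at k
    rw [k, h.inside h1]
  · have k := (h.cell h1).2.2
    rw [show 2 * (a - 1) + 2 = 2 * a by ring, show 2 * (b - 1) + 2 = 2 * b by ring] at k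
    rw [k, h.inside h1]

end Temp

end Vale.Agent.P155
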