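import Vale.Agent.P155.A.Pick
import Vale.Agent.P155.A.Temp2
import Vale.Agent.P155.Skel

/-!
# P155, block A3b: final statements
-/

namespace Vale.Agent.P155

open Finset LatCycle

namespace Temp

theorem card_white_eq (T : Temp) : (T.V.filter White).card = (T.V.filter Black).card :=
  card_of_euler T (pick T.γ)

/-- **the Kasteleyn matrix of a Temperleyan graph is invertible** -/
theorem det_KM_ne_zero (T : Temp) : (KM T.V).det ≠ 0 := det_ne_zero T (card_white_eq T)

theorem exists_pm (T : Temp) : ∃ m, IsPM T.V m := exists_isPM (det_KM_ne_zero T)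

theorem Z_V_pos (T : Temp) : 0 < Z T.V := Z_pos (det_KM_ne_zero T)

/-- `T.V` itself is an admissible vertex subset -/
theorem sub_self (T : Temp) : Skel.Sub T T.V := by
  obtain ⟨m, hm⟩ := exists_pm T
  refine ⟨m, mem_PM.2 hm, fun v hv => ⟨hv, ?_⟩⟩
  by_contra h
  have h1 := hm.off _ h
  rw [hm.invol] at h1
  rw [← h1] at h
  exact h hv

end Temp

namespace Skel

theorem a_fin : A_fin := fun T =>
  ⟨Temp.closedVerts_finite T, Temp.faceSet_finite T, Temp.v0_mem T⟩

theorem a_card : A_card := fun T => Temp.card_white_eq T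

end Skel

end Vale.Agent.P155
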